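import Vale.Agent.P221X.GD.Defs

/-!
# P221X, block GD: the group theoretic facts
-/

noncomputable section

namespace Vale.Agent.P221X.Qt

open Vale.Agent.P251.F

variable {p : ℕ} {O F : Type} [Ring O] [Field F] {Q : QD p O F} {i : ℕ} {a b : Q.G1} {c d : F}

/-- the leading coefficient of `a - 1` -/
def Ld (i : ℕ) (a : Q.G1) (c : F) : Prop := ∃ x, Q.emb a - 1 = x * Q.S ^ i ∧ Q.r x = c

theorem exists_ld (h : a ∈ Q.Gf i) : ∃ c, Ld i a c := let ⟨x, hx⟩ := h; ⟨_, x, hx, rfl⟩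

theorem ld_one : Ld i (1 : Q.G1) 0 := ⟨0, by simp, map_zero _⟩

namespace Ld

theorem mem (h : Ld i a c) : a ∈ Q.Gf i := let ⟨x, hx, _⟩ := h; ⟨x, hx⟩

theorem succ_iff (h : Ld i a c) : a ∈ Q.Gf (i + 1) ↔ c = 0 := by
  obtain ⟨x, hx, rfl⟩ := h
  rw [Q.mem_Gf, hx, Q.mul_S_pow_mem_succ_iff]

theorem unique (h : Ld i a c) (h' : Ld i a d) : c = d := by
  obtain ⟨x, hx, rfl⟩ := h
  obtain ⟨y, hy, rfl⟩ := h'
  rw [sub_eq_zero.1 (Q.reg_pow i (x - y) (by rw [sub_mul, ← hx, ← hy, sub_self]))]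

theorem mul (h : Ld i a c) (h' : Ld i b d) : Ld i (a * b) (c + d) := by
  obtain ⟨x, hx, rfl⟩ := h
  obtain ⟨y, hy, rfl⟩ := h'
  refine ⟨x * Q.φ^[i] (Q.emb b) + y, ?_, ?_⟩
  · rw [add_mul, mul_assoc, ← Q.pow_mul_eq, ← mul_assoc, ← hx, ← hy, map_mul]
    noncomm_ring
  · rw [map_add, map_mul, Q.r_iterate, Q.r_emb, one_pow, mul_one]

theorem inv (h : Ld i a c) : Ld i a⁻¹ (-c) := by
  obtain ⟨d, hd⟩ := exists_ld (inv_mem h.mem)
  rwa [neg_eq_of_add_eq_zero_right ((h.mul hd).unique (mul_inv_cancel a ▸ ld_one))]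

theorem pow (h : Ld i a c) (n : ℕ) : Ld i (a ^ n) (n * c) := by
  induction n with
  | zero => simpa using ld_one
  | succ n ih => simpa only [pow_succ, Nat.cast_succ, add_mul, one_mul] using ih.mul h

theorem zpow (h : Ld i a c) (z : ℤ) : Ld i (a ^ z) (z * c) := by
  obtain ⟨n, rfl | rfl⟩ := z.eq_nat_or_neg
  · simpa using h.pow n
  · simpa using (h.pow n).inv

variable [hp : Fact p.Prime] [CharP F p]

theorem pow_p (h5 : 5 ≤ p) (hi : 1 ≤ i) (h : Ld i a c) : Ld (i + 2) (a ^ p) c := by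
  obtain ⟨x, hx, rfl⟩ := h
  have h1 : ∀ j, (x * Q.S ^ i) ^ j ∈ Q.I (j * i) := fun j => by
    induction j with
    | zero => exact (zero_mul i).symm ▸ Q.mem_I_zero _
    | succ j ih => exact pow_succ (x * Q.S ^ i) j ▸ add_one_mul j i ▸ Q.mul_mem_I ih ⟨x, rfl⟩
  obtain ⟨y, hy⟩ := Q.I_anti (show i + 3 ≤ p * i by nlinarith) (h1 p)
  obtain ⟨u, h2, h3, -⟩ := Q.one_add_pow _ (Q.mem_I_one.1 (Q.I_anti hi ⟨x, rfl⟩))
  refine ⟨y * Q.S + x * Q.φ^[i + 2] u, ?_, ?_⟩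
  · rw [map_pow, ← add_sub_cancel 1 (Q.emb a), hx, h2, hy, Q.p_mul_eq Q.p_eq, add_mul,
      mul_assoc x (Q.φ^[i + 2] u), ← Q.pow_mul_eq, mul_assoc y, ← pow_succ', pow_add _ i 2]
    noncomm_ring
  · rw [map_add, map_mul, map_mul, Q.r_S, Q.r_iterate, h3, one_pow, mul_one, mul_zero, zero_add]

theorem pow_pow (h5 : 5 ≤ p) (hi : 1 ≤ i) (h : Ld i a c) (l : ℕ) :
    Ld (2 * l + i) (a ^ p ^ l) c := by
  induction l with
  | zero => simpa using h
  | succ l ih =>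
    rw [pow_succ, pow_mul, show 2 * (l + 1) + i = 2 * l + i + 2 by ring]
    exact ih.pow_p h5 (by omega)

end Ld

variable (Q)

theorem ld_γ₁ : Ld 1 Q.γ₁ 1 := ⟨1, by simp [Q.emb_γ₁], map_one _⟩

theorem ld_γ₂ : Ld 1 Q.γ₂ Q.w := ⟨Q.δ, by simp [Q.emb_γ₂], Q.r_t _⟩

theorem ld_ψ : Ld 2 Q.ψ 1 := ⟨1, by simp [Q.emb_ψ, Q.p_eq], map_one _⟩

theorem ld_g : Ld 2 Q.g Q.w :=
  ⟨Q.δ, by rw [Q.emb_g, add_sub_cancel_left, ← Q.p_eq, (Nat.cast_commute p _).eq], Q.r_t _⟩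

/-- Teichmueller lifts of the prime field are central -/
theorem t_comm (h : c ^ p = c) (f : O) : Q.t c * f = f * Q.t c := by
  refine sub_eq_zero.1 (Q.eq_zero_of_forall_mem fun n => ?_)
  induction n generalizing f with
  | zero => exact Q.mem_I_zero _
  | succ n ih =>
    obtain ⟨g, hg⟩ := Q.exists_of_r (f - Q.t (Q.r f)) (by rw [map_sub, Q.r_t, sub_self])
    have h1 := Q.mul_mem_I (ih g) (Q.S_pow_mem 1)
    rw [sub_eq_iff_eq_add.1 hg, mul_add, add_mul, ← map_mul, ← map_mul, mul_comm c,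
      add_sub_add_right_eq_sub, mul_assoc g, Q.S_t, h]
    simpa only [sub_mul, mul_assoc, pow_one] using h1

theorem conj_mem_Gf (u : Oˣ) (h : a ∈ Q.Gf i) : Q.conj u a ∈ Q.Gf i := by
  have := Q.mul_mem_I_right (Q.mul_mem_I_left u h) (u⁻¹ : Oˣ)
  rwa [mul_sub, sub_mul, mul_one, Units.mul_inv] at this

theorem conj_eq {u : Oˣ} (h : u * Q.emb a = Q.emb a * u) : Q.conj u a = a :=
  Q.emb_injective (by rw [Q.emb_conj, h, Units.mul_inv_cancel_right])

theorem conj_pow (u : Oˣ) (n : ℕ) (a : Q.G1) : (Q.conj u ^ n) a = Q.conj (u ^ n) a := by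
  induction n with
  | zero => exact (conj_eq Q (by simp)).symm
  | succ n ih =>
    rw [pow_succ', MulAut.mul_apply, ih]
    exact Q.emb_injective (by simp [Q.emb_conj, pow_succ', mul_assoc])

theorem fin_Gf [Finite F] (i : ℕ) : (Q.Gf i).FiniteIndex := by
  induction i with
  | zero => exact (eq_top_iff.2 fun a _ => Q.mem_I_zero _ : Q.Gf 0 = ⊤) ▸ inferInstance
  | succ i ih =>
    choose f hf using fun a : Q.Gf i => exists_ld a.2
    let φ : Q.Gf i →* Multiplicative F := MonoidHom.mk' (fun a => .ofAdd (f a))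
      fun a b => congrArg Multiplicative.ofAdd ((hf _).unique ((hf a).mul (hf b)))
    have h1 : (Q.Gf (i + 1)).subgroupOf (Q.Gf i) = φ.ker := Subgroup.ext fun a => (hf a).succ_iff
    refine ⟨?_⟩
    rw [← Subgroup.relIndex_mul_index (K := Q.Gf i) fun a h => Q.I_anti i.le_succ h,
      Subgroup.relIndex, h1]
    exact mul_ne_zero Subgroup.FiniteIndex.index_ne_zero ih.1

variable [hp : Fact p.Prime] [CharP F p]

omit [CharP F p] in
theorem w_ne : Q.w ≠ 0 := pow_ne_zero _ Q.ξ_ne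

omit [CharP F p] in
theorem w_pow (h5 : 5 ≤ p) : Q.w ^ p = -Q.w := by
  obtain ⟨m, hm⟩ := hp.out.odd_of_ne_two (by omega)
  have h1 := (Q.ξ_prim.pow (a := (m + 1) * (2 * m)) (b := 2) (by
    rw [Nat.sub_pos_iff_lt]
    nlinarith) (by
    rw [Nat.sub_eq_iff_eq_add (by nlinarith), hm]
    ring)).eq_neg_one_of_two_right
  rw [QD.w, show (p + 1) / 2 = m + 1 by omega, ← pow_mul, congrArg ((m + 1) * ·) hm, mul_add_one,
    pow_add, h1, neg_one_mul]

omit hp in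
theorem two_ne (h5 : 5 ≤ p) : (2 : F) ≠ 0 := fun h =>
  absurd (Nat.le_of_dvd two_pos ((CharP.cast_eq_zero_iff F p 2).1 (by exact_mod_cast h))) (by omega)

theorem frob (h5 : 5 ≤ p) (i j : ℤ) : ((i : F) + j * Q.w) ^ p = i - j * Q.w := by
  rw [← frobenius_def, map_add, map_mul, map_intCast, map_intCast, frobenius_def, w_pow Q h5]
  ring

theorem w_ind (h5 : 5 ≤ p) {i j : ℤ} (h : (i : F) * 1 + j * Q.w = 0) :
    (p : ℤ) ∣ i ∧ (p : ℤ) ∣ j := by
  have h1 := frob Q h5 i j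
  rw [mul_one] at h
  rw [h, zero_pow hp.out.ne_zero] at h1
  have h2 : (i : F) = 0 := mul_left_cancel₀ (two_ne h5) (by linear_combination h - h1)
  rw [h2, zero_add, mul_eq_zero, or_iff_left (w_ne Q)] at h
  exact ⟨(CharP.intCast_eq_zero_iff F p i).1 h2, (CharP.intCast_eq_zero_iff F p j).1 h⟩

theorem w_span (h5 : 5 ≤ p) (hF : Nat.card F = p ^ 2) (c : F) :
    ∃ i j : ℕ, (i : F) * 1 + j * Q.w = c := by
  have h1 : Function.Injective fun z : Fin p × Fin p => (z.1 : F) * 1 + z.2 * Q.w := fun y z h => by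
    obtain ⟨a1, a2⟩ := w_ind Q h5 (i := y.1 - z.1) (j := y.2 - z.2) (by
      push_cast
      linear_combination h)
    have e : ∀ s t : Fin p, (p : ℤ) ∣ s - t → s = t := fun s t h => Fin.ext (by
      have := Int.eq_zero_of_abs_lt_dvd h (by rw [abs_lt]; omega)
      omega)
    exact Prod.ext (e _ _ a1) (e _ _ a2)
  have : Finite F := Nat.finite_of_card_ne_zero (hF ▸ pow_ne_zero 2 hp.out.ne_zero)
  obtain ⟨z, hz⟩ := (h1.bijective_of_nat_card_le (by simp [hF, sq])).2 c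
  exact ⟨_, _, hz⟩

/-- **The group theoretic facts.** -/
theorem gp (h5 : 5 ≤ p) (hF : Nat.card F = p ^ 2) : GP Q where
  Gf_one a := Q.mem_I_one.2 (by rw [map_sub, Q.r_emb, map_one, sub_self])
  Gf_anti h _ ha := Q.I_anti h ha
  Gf_normal _ := ⟨fun _ h u => conj_mem_Gf Q u h⟩
  Gf_comm {i j a b} ha hb := by
    have := Q.mul_mem_I_right (sub_mem (Q.mul_mem_I ha hb) (add_comm j i ▸ Q.mul_mem_I hb ha))
      (Q.emb (a⁻¹ * b⁻¹))
    rw [show (Q.emb a - 1) * (Q.emb b - 1) - (Q.emb b - 1) * (Q.emb a - 1) =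
      Q.emb (a * b) - Q.emb (b * a) by simp only [map_mul]; noncomm_ring, sub_mul, ← map_mul,
      ← map_mul] at this
    simpa only [Q.mem_Gf, mul_assoc, mul_inv_cancel_left, mul_inv_cancel, map_one] using this
  Gf_pow hi h := let ⟨_, hc⟩ := exists_ld h; (hc.pow_p h5 hi).mem
  g_mem := (ld_g Q).mem
  ψ_mem := (ld_ψ Q).mem
  odd_span l a h := by
    obtain ⟨c, hc⟩ := exists_ld h
    obtain ⟨i, j, rfl⟩ := w_span Q h5 hF c
    exact ⟨i, j, (((((ld_γ₁ Q).pow_pow h5 le_rfl l).pow i).mul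
      (((ld_γ₂ Q).pow_pow h5 le_rfl l).pow j)).inv.mul hc).succ_iff.2 (neg_add_cancel _)⟩
  odd_ind l i j h := w_ind Q h5 (((((ld_γ₁ Q).pow_pow h5 le_rfl l).zpow i).mul
    (((ld_γ₂ Q).pow_pow h5 le_rfl l).zpow j)).succ_iff.1 h)
  even_span l a h := by
    obtain ⟨c, hc⟩ := exists_ld h
    obtain ⟨i, j, rfl⟩ := w_span Q h5 hF c
    exact ⟨j, i, (((((ld_g Q).pow_pow h5 one_le_two l).pow j).mul (((ld_ψ Q).pow_pow h5
      one_le_two l).pow i)).inv.mul hc).succ_iff.2 (by ring)⟩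
  even_ind l i j h := (w_ind Q h5 ((add_comm _ _).trans (((((ld_g Q).pow_pow h5 one_le_two
    l).zpow i).mul (((ld_ψ Q).pow_pow h5 one_le_two l).zpow j)).succ_iff.1 h))).symm
  ψ_comm a := Q.emb_injective (by
    rw [map_mul, map_mul, Q.emb_ψ]
    exact ((Commute.one_left _).add_left (Nat.cast_commute p _)).eq)
  cj_mem _ _ := conj_mem_Gf Q _
  cj_g := conj_eq Q ((Commute.one_right _).add_right ((Nat.commute_cast _ p).mul_right
    ((Commute.all Q.ξ Q.w).map Q.t))).eq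
  cj_ψ := conj_eq Q ((Commute.one_right _).add_right (Nat.commute_cast _ p)).eq
  cj_pow a := by
    rw [QD.cj, conj_pow, ← map_pow]
    refine conj_eq Q (t_comm Q (c := Q.ξ ^ (p + 1)) ?_ _)
    rw [← pow_mul, show (p + 1) * p = p ^ 2 - 1 + (p + 1) by
      have := Nat.one_le_pow 2 p hp.out.pos
      zify [this]
      ring, pow_add, Q.ξ_prim.pow_eq_one, one_mul]
  odd_form l a h h' := by
    obtain ⟨_, x, hx, rfl⟩ := exists_ld h
    refine ⟨x, mt (Ld.succ_iff ⟨x, hx, rfl⟩).2 h', ?_⟩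
    rw [Q.p_pow_mul_eq Q.p_eq, mul_assoc, ← pow_succ', ← hx, add_sub_cancel]
  even_form l a h h' := by
    obtain ⟨_, x, hx, rfl⟩ := exists_ld h
    refine ⟨x, fun e => ?_, by rw [Q.p_pow_mul_eq Q.p_eq, mul_add_one, ← hx, add_sub_cancel]⟩
    obtain ⟨i, j, c⟩ := w_span Q h5 hF (Q.r x)
    have h1 := frob Q h5 i j
    refine h' (p ^ l * -i) ((Ld.succ_iff (c := (-i : ℤ) * 1 + Q.r x) (.mul ?_ ⟨x, hx, rfl⟩)).2
      (mul_left_cancel₀ (two_ne h5) ?_))
    · rw [zpow_mul, ← Nat.cast_pow, zpow_natCast]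
      exact ((ld_ψ Q).pow_pow h5 one_le_two l).zpow _
    · rw [Int.cast_natCast, Int.cast_natCast, ← mul_one (i : F), c, e] at h1
      push_cast
      linear_combination h1 - c
  fin := @fin_Gf _ _ _ _ _ Q (Nat.finite_of_card_ne_zero (hF ▸ pow_ne_zero 2 hp.out.ne_zero))

end Vale.Agent.P221X.Qt
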