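import Vale.Agent.P221X.GD.LP
import Vale.Agent.P221X.GD.GP
import Vale.Agent.P251.F.VirtUnif

/-!
# P221X, block GD: the concrete ring data and the action of the principal units
-/

noncomputable section

namespace Vale.Agent.P221X.Qt

open Vale.Agent.P217 Vale.Agent.P251.F Vale.Agent.P261Z Vale.Agent.P261Z.N PowerSeries

variable {p : ℕ} [hp : Fact p.Prime] {F : Type} [Field F]

variable (p F) in
/-- the endomorphism ring of the law of height two -/
abbrev OO : Type := EndF (H0 p F).toFG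

theorem exists_prim (hF : Nat.card F = p ^ 2) : ∃ ξ : F, IsPrimitiveRoot ξ (p ^ 2 - 1) := by
  have : Finite F := Nat.finite_of_card_ne_zero (by rw [hF]; exact pow_ne_zero _ hp.out.ne_zero)
  obtain ⟨g, hg⟩ := IsCyclic.exists_ofOrder_eq_natCard (α := Fˣ)
  refine ⟨g, IsPrimitiveRoot.coe_units_iff.2 ?_⟩
  rw [← hF, ← Nat.card_units, ← hg]
  exact IsPrimitiveRoot.orderOf g

theorem hs_lin (a : F) : HasSubst (C a * X : PowerSeries F) :=
  hasSubst_of_cc (by change constantCoeff (C a * X : PowerSeries F) = 0; simp)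

variable [CharP F p] (hF : Nat.card F = p ^ 2)

/-- the ring data -/
def Q0 : QD p (OO p F) F where
  toCSRing := (honda hF).CD one_le_two
  t :=
    { toFun := fun a => EndF.mk (C a * X) ((honda hF).teich a)
      map_one' := EndF.ext (by simp)
      map_mul' := fun a b => EndF.ext (by
        rw [EndF.val_mul, EndF.val_mk, EndF.val_mk, EndF.val_mk, subst_mul (hs_lin b),
          subst_X (hs_lin b), subst_C, map_mul, mul_assoc]
        rfl) }
  r_t a := by
    change coeff 1 (C a * X : PowerSeries F) = a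
    simp
  S_t a := EndF.ext (by
    have h := HasSubst.X_pow (R := F) hp.out.ne_zero
    change subst (C a * X : PowerSeries F) (X ^ p : PowerSeries F) =
      subst (X ^ p : PowerSeries F) (C (a ^ p) * X : PowerSeries F)
    rw [subst_pow (hs_lin a), subst_X (hs_lin a), subst_mul h, subst_X h, subst_C, mul_pow,
      map_pow]
    rfl)
  unit f hf := ⟨AutF.toUnits (f.toAut (IsUnit.mk0 _ hf)), rfl⟩
  ξ := (exists_prim hF).choose
  ξ_prim := (exists_prim hF).choose_spec

theorem Q0_r (f : OO p F) : (Q0 hF).r f = coeff 1 f.val := rfl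

theorem Q0_S : (Q0 hF).S.val = X ^ p := rfl

theorem Q0_t (a : F) : ((Q0 hF).t a).val = C a * X := rfl

/-- the lift of a unit -/
def lfu : (OO p F)ˣ →* LP p F := (lift hF).comp AutF.toUnits.symm.toMonoidHom

omit [CharP F p] in
theorem lfu_injective : Function.Injective (lfu hF) :=
  (lift_injective hF).comp AutF.toUnits.symm.injective

omit [CharP F p] in
theorem lfu_C (a : (OO p F)ˣ) (c : F) : (lfu hF a).φ (C c) = C c := lift_C hF _ c

omit [CharP F p] in
theorem lfu_γ (a : (OO p F)ˣ) :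
    PowerSeries.map (constantCoeff (R := F)) (lfu hF a).γ.val = (a : OO p F).val := lift_γ hF _

omit [CharP F p] in
/-- every pair is a lift times a Galois element -/
theorem eq_lfu_mul (a : LP p F) : ∃ b, a = lfu hF b * gal p (resAut hF a.φ) :=
  ⟨AutF.toUnits (toAut (red hF a)), eq_lift_mul hF a⟩

theorem lfu_tu (c : Fˣ) : lfu hF ((Q0 hF).tu c) = tei hF c := (tei_eq_lift hF c rfl).symm

/-- the lift of a principal unit -/
def lf : (Q0 hF).G1 →* LP p F := (lfu hF).comp (Q0 hF).G1.subtype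

theorem lf_injective : Function.Injective (lf hF) :=
  (lfu_injective hF).comp Subtype.val_injective

theorem lf_C (a : (Q0 hF).G1) (c : F) : (lf hF a).φ (C c) = C c := lift_C hF _ c

theorem lf_γ (a : (Q0 hF).G1) :
    PowerSeries.map (constantCoeff (R := F)) (lf hF a).γ.val = ((Q0 hF).emb a).val := lift_γ hF _

theorem lf_conj (c : (OO p F)ˣ) (a : (Q0 hF).G1) :
    lf hF ((Q0 hF).conj c a) = lfu hF c * lf hF a * (lfu hF c)⁻¹ := by
  change lfu hF (c * a * c⁻¹) = _
  rw [map_mul, map_mul, map_inv]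
  rfl

theorem lf_cj (a : (Q0 hF).G1) :
    lf hF ((Q0 hF).cj a) * tei hF (Q0 hF).ξu = tei hF (Q0 hF).ξu * lf hF a := by
  rw [QD.cj, lf_conj, lfu_tu, inv_mul_cancel_right]

/-- the action on `F[[u]]` -/
def act0 : (Q0 hF).G1 →* (PowerSeries F ≃ₐ[F] PowerSeries F) where
  toFun a := AlgEquiv.ofRingEquiv (f := (lf hF a).φ) (lf_C hF a)
  map_one' := AlgEquiv.ext fun f => by
    change (lf hF 1).φ f = f
    rw [map_one]; rfl
  map_mul' a b := AlgEquiv.ext fun f => by
    change (lf hF (a * b)).φ f = _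
    rw [map_mul]; rfl

theorem act0_apply (a : (Q0 hF).G1) (f : PowerSeries F) : act0 hF a f = (lf hF a).φ f := rfl

theorem act0_ψ : act0 hF (Q0 hF).ψ = 1 := AlgEquiv.ext fun f => by
  have h : (lf hF (Q0 hF).ψ).φ = 1 := lift_mult hF (m := 1 + p) (by
    rw [← EndF.val_natCast, Nat.cast_add, Nat.cast_one]
    rfl)
  rw [act0_apply, h]
  rfl

theorem act0_cont (n : ℕ) : ∃ N, ∀ a ∈ (Q0 hF).Gf N, Dep (act0 hF a) n := by
  obtain ⟨m, hm⟩ := lift_cont hF (n + 1)
  refine ⟨m, fun a ha => ?_⟩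
  have h1 : AutF.toEnd (AutF.toUnits.symm (a : (OO p F)ˣ)) = (Q0 hF).emb a := rfl
  have h2 : AutF.toUnits.symm (a : (OO p F)ˣ) ∈ AutF.congr (H0 p F).toFG (p ^ m) :=
    (honda hF).mem_congr_iff.2 (by rw [h1]; exact ha)
  exact hm _ fun i hi => h2 i (hi.trans (Nat.lt_pow_self hp.out.one_lt))

/-- the root of unity of order `p + 1` -/
def ζ0 : F := (Q0 hF).ξ ^ (p - 1)

theorem ζ0_prim : IsPrimitiveRoot (ζ0 hF) (p + 1) := by
  refine (Q0 hF).ξ_prim.pow ?_ ?_
  · have h : 2 ^ 2 ≤ p ^ 2 := Nat.pow_le_pow_left hp.out.two_le 2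
    omega
  · rw [mul_comm, ← Nat.sq_sub_sq, one_pow]

theorem act0_cj (a : (Q0 hF).G1) (f : PowerSeries F) :
    act0 hF ((Q0 hF).cj a) (rescale (ζ0 hF) f) = rescale (ζ0 hF) (act0 hF a f) := by
  have h := congrArg (fun x : LP p F => x.φ f) (lf_cj hF a)
  simp only [LPair.mul_φ, RingAut.mul_apply, tei_φ] at h
  exact h

end Vale.Agent.P221X.Qt
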