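import Vale.Agent.P221X.GD.Keat0
import Vale.Agent.P221X.GD.Q0

/-!
# P221X, block GD: Keating's bounds
-/

noncomputable section

namespace Vale.Agent.P221X.Qt.Kt

open Vale.Agent.P217 Vale.Agent.P251.F Vale.Agent.P261Z Vale.Agent.P261Z.N PowerSeries

variable {p : ℕ} [hp : Fact p.Prime] {F : Type} [Field F] [CharP F p]

variable (p F) in
/-- the obstruction: `f ([p] x) - [p] (f x) = (Dv f) (x ^ p)` -/
def Dv : Cv (FO p F) →+ Cv (FO p F) := rep _ (Vc p F).ser (Vc p F).cc - W p F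

theorem Dv_apply (f : Cv (FO p F)) : Dv p F f = rep _ (Vc p F).ser (Vc p F).cc f - W p F f := rfl

theorem vv_Dv (f : Cv (FO p F)) :
    vv _ p (Dv p F f) = rep _ (p • xx (FO p F)).ser (Cv.cc _) f - p • f := by
  rw [Dv_apply, map_sub, vv_W, vv, rep_rep]
  congr 2
  exact rep_congr _ _ _ (congrArg Cv.ser p_xx).symm

omit [CharP F p] in
theorem red_rep (w : PowerSeries (PowerSeries F)) :
    red (subst (Vc p F).ser w : PowerSeries (PowerSeries F)) =
      subst (X ^ p : PowerSeries F) (red w) := (map_sb _ (Vc p F).cc w).trans (by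
  rw [← red_V (p := p)]; rfl)

omit [CharP F p] in
theorem red_exp (w : PowerSeries (PowerSeries F)) :
    red (subst (X ^ p : PowerSeries (PowerSeries F)) w : PowerSeries (PowerSeries F)) =
      subst (X ^ p : PowerSeries F) (red w) := (map_sb _ ccp w).trans (by rw [map_pow, map_X]; rfl)

theorem W_dvd {z : Cv (FO p F)} {c : ℕ} {w} (h : z.ser = uu F ^ c * w) (hc : 1 ≤ c) :
    uu F ^ (c + 2) ∣ (W p F z).ser := by
  obtain ⟨w', e, -⟩ := W_lead h hc
  have := Nat.mul_le_mul_right c hp.out.two_le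
  exact (pow_dvd_pow _ (by omega)).trans ⟨w', e⟩

theorem Dv_lead {s : Cv (FO p F)} {c : ℕ} {w} (h : s.ser = uu F ^ c * w) (hc : 1 ≤ c) :
    ∃ w', (Dv p F s).ser = uu F ^ c * w' ∧ red w' = subst (X ^ p : PowerSeries F) (red w) := by
  obtain ⟨t, e⟩ := W_dvd h hc
  obtain ⟨w', e1, e2⟩ := lead (a := rep _ (Vc p F).ser (Vc p F).cc s) (b := W p F s) (c := c)
    (w := subst (Vc p F).ser w - uu F ^ 2 * t) (by rw [rep_ser, h, subst_u (Vc p F).cc, e]; ring)
    ((dvd_pow_self _ (by omega)).trans ⟨t, e⟩)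
  exact ⟨w', e1, by simp [e2, red_rep]⟩

/-- the obstruction has level `a` -/
def PA (a : ℕ) (f : Cv (FO p F)) : Prop :=
  ∃ w, (Dv p F f).ser = uu F ^ a * w ∧ derivative F (red w) ≠ 0

/-- the obstruction can be removed at the level `c` -/
def QA (c : ℕ) (f : Cv (FO p F)) : Prop :=
  ∃ (E : Cv (FO p F)) (w : _), E.ser = uu F ^ c * w ∧ derivative F (red w) ≠ 0 ∧ Dv p F f = vv _ p E

theorem PA.not {a : ℕ} {f f' : Cv (FO p F)} (h : PA a f) (ha : 1 ≤ a) (e : uu F ∣ (f' - f).ser) :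
    ¬ uu F ^ (a + 1) ∣ (Dv p F f').ser := by
  rintro ⟨t, ht⟩
  obtain ⟨w, h1, h2⟩ := h
  obtain ⟨w', h3, h4⟩ := lead (a := Dv p F f') (b := Dv p F f) (c := a) (w := uu F * t - w)
    (by rw [ht, h1]; ring) ((dvd_pow_self _ (by omega)).trans ⟨w, h1⟩)
  rw [← map_sub] at h3
  have key : ∀ c, c + 1 ≤ a → uu F ^ (c + 1) ∣ (f' - f).ser := fun c => by
    induction c with
    | zero => exact fun _ => by simpa using e
    | succ c ih =>
      intro hc
      obtain ⟨w2, h5⟩ := ih (by omega)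
      obtain ⟨w3, h6, h7⟩ := Dv_lead h5 (by omega)
      obtain ⟨k, rfl⟩ := Nat.exists_eq_add_of_le hc
      rw [h3, show c + 1 + 1 + k = c + 1 + (k + 1) by omega, pow_add, mul_assoc] at h6
      rw [← mul_left_cancel₀ (uu_ne _) h6] at h7
      obtain ⟨w4, rfl⟩ := u_dvd.2 (expand_eq_zero (p := p) (h7.symm.trans (by simp)))
      exact ⟨w4, by rw [h5]; ring⟩
  obtain ⟨a, rfl⟩ := Nat.exists_eq_add_of_le' ha
  obtain ⟨w2, h5⟩ := key a le_rfl
  obtain ⟨w3, h6, h7⟩ := Dv_lead h5 ha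
  rw [← mul_left_cancel₀ (uu_ne _) (h3.symm.trans h6), h4] at h7
  have h8 := congrArg (derivative F) h7
  rw [d_expand] at h8
  exact h2 (by simpa using h8)

theorem PA.step {a : ℕ} {f : Cv (FO p F)} (h : PA a f) (ha : 1 ≤ a) : QA (p * a + 1) (p • f) := by
  obtain ⟨w, h1, h2⟩ := h
  obtain ⟨w', h3, h4⟩ := W_lead h1 ha
  refine ⟨_, w', h3, fun c => h2 ?_, by rw [map_nsmul, vv_W]⟩
  rw [h4, red_fr, ← map_d] at c
  exact PowerSeries.map_injective _ (frobenius F p).injective (c.trans (map_zero _).symm)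

theorem QA.step {c : ℕ} {f : Cv (FO p F)} (h : QA c f) (hc : 1 ≤ c) :
    ∃ f', uu F ∣ (f' - f).ser ∧ PA (c + 1) f' := by
  obtain ⟨E, w, h1, h2, h3⟩ := h
  have hE : uu F ∣ E.ser := (dvd_pow_self _ (by omega)).trans ⟨w, h1⟩
  obtain ⟨t, ht⟩ : uu F ∣ (subst (X ^ p : PowerSeries (PowerSeries F)) w :
      PowerSeries (PowerSeries F)) - subst (Vc p F).ser w :=
    u_dvd.2 ((map_sub _ _ _).trans (sub_eq_zero.2 ((red_exp w).trans (red_rep w).symm)))
  have e1 : (vv _ p E).ser = uu F ^ c * subst (X ^ p : PowerSeries (PowerSeries F)) w := by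
    rw [vv, rep_ser, h1, subst_u (ccp (S := PowerSeries F) (p := p))]
  have e2 : (rep _ (Vc p F).ser (Vc p F).cc E).ser = uu F ^ c * subst (Vc p F).ser w := by
    rw [rep_ser, h1, subst_u (Vc p F).cc]
  obtain ⟨t', h4, h5⟩ := lead (a := vv _ p E) (b := rep _ (Vc p F).ser (Vc p F).cc E) (c := c + 1)
    (w := t) (by rw [e1, e2, ← mul_sub, ht]; ring)
    (by rw [e2]; exact (dvd_pow_self _ (by omega)).mul_right _)
  obtain ⟨b, hb⟩ : uu F ^ (c + 2) ∣ (-W p F E).ser := (KC _ _).neg_mem (W_dvd h1 hc)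
  obtain ⟨t'', h6, h7⟩ := lead (a := vv _ p E - rep _ (Vc p F).ser (Vc p F).cc E) (b := -W p F E)
    (c := c + 1) (w := t' - uu F * b) (by rw [h4, hb]; ring)
    ((dvd_pow_self _ (by omega)).trans ⟨b, hb⟩)
  refine ⟨f - E, by rw [sub_sub_cancel_left]; exact (KC _ _).neg_mem hE, t'',
    by rw [← h6, map_sub, h3, Dv_apply]; congr 1; abel, ?_⟩
  obtain ⟨v, h8, h9⟩ := d_V (p := p) (F := F)
  have h10 := congrArg (derivative _) ht
  rw [d_sub, d_expand, derivative_subst (hsb (Vc p F).cc), h8, uu, d_C_mul, ← uu, zero_sub,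
    mul_left_comm, ← mul_neg] at h10
  have h11 := congrArg red (mul_left_cancel₀ (by simpa using uu_ne (F := F) 1) h10)
  rw [map_neg, map_mul, red_rep, red, map_d, map_d, ← red] at h11
  rw [h7, map_sub, map_mul, red_u, zero_mul, sub_zero, h5, ← h11]
  exact neg_ne_zero.2 (mul_ne_zero (fun c => h2 (expand_eq_zero c)) h9)

/-- some lift has an obstruction of level `a` -/
def PP (a : ℕ) (f : Cv (FO p F)) : Prop := 1 ≤ a ∧ ∃ f', uu F ∣ (f' - f).ser ∧ PA a f'

theorem PP.step {a : ℕ} {f : Cv (FO p F)} (h : PP a f) : PP (p * a + 2) (p • f) := by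
  obtain ⟨ha, f', h1, h2⟩ := h
  obtain ⟨f'', h3, h4⟩ := (h2.step ha).step (by omega)
  refine ⟨by omega, f'', ?_, h4⟩
  rw [← sub_add_sub_cancel _ (p • f'), ← smul_sub]
  exact (KC _ _).add_mem h3 ((KC _ _).nsmul_mem h1 p)

theorem PP.not {a : ℕ} {f g : Cv (FO p F)} (h : PP a f) (e : uu F ∣ (g - f).ser) :
    ¬ uu F ^ (a + 1) ∣ (Dv p F g).ser := by
  obtain ⟨ha, f', h1, h2⟩ := h
  refine h2.not ha ?_
  rw [← sub_sub_sub_cancel_right _ _ f]
  exact (KC _ _).sub_mem e h1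

theorem d_ne {z w : PowerSeries (PowerSeries F)} {a : PowerSeries F} (h : z = uu F ^ 1 * w)
    (e : coeff 1 z = X * a) (ha : constantCoeff a ≠ 0) : derivative F (red w) ≠ 0 := fun c => by
  rw [h, pow_one, uu, coeff_C_mul] at e
  have := congrArg (coeff 0) c
  rw [coeff_derivative, red, coeff_map, mul_left_cancel₀ X_ne_zero e] at this
  exact ha (by simpa using this)

theorem base0 (hF : ∀ c : F, c ^ p ^ 2 = c) {f : Cv (FO p F)}
    (h : coeff 1 (red f.ser) ^ p ≠ coeff 1 (red f.ser)) : PP 1 f := by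
  obtain ⟨w, e⟩ : uu F ^ 1 ∣ (Dv p F f).ser := by
    rw [pow_one, Dv_apply, dvd_sub_iff, u_dvd, map_sub, red_W hF, rep_ser, red_rep, sub_self]
  refine ⟨le_rfl, f, by simp, w, e, d_ne (a := coeff 1 f.ser - coeff 1 f.ser ^ p) e ?_ ?_⟩
  · rw [Dv_apply, coeff_one_sub, coeff_W, rep_ser, coeff_one_subst (Vc p F).cc, coeff_V]
    ring
  · rw [map_sub, map_pow]
    exact sub_ne_zero.2 h.symm

theorem base1 (hF : ∀ c : F, c ^ p ^ 2 = c) {g : Cv (FO p F)} (h : coeff 1 (red g.ser) ≠ 0) :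
    PP 2 (vv _ p g) := by
  have h0 := cc_fr (p := p) (Vc p F).cc
  obtain ⟨w, e⟩ : uu F ^ 1 ∣ (rep _ _ h0 g - W p F g).ser := by
    rw [pow_one, dvd_sub_iff, u_dvd, map_sub, red_W hF, rep_ser, red, map_sb _ h0, ← red, red_fr,
      red_V, map_pow, map_X, sub_self]
  obtain ⟨k, hk⟩ := Nat.exists_eq_add_of_le' hp.out.two_le
  refine ⟨one_le_two, QA.step ⟨_, w, e,
    d_ne (a := X ^ (k + 1) * coeff 1 g.ser - coeff 1 g.ser ^ p) e ?_ ?_, ?_⟩ le_rfl⟩
  · rw [coeff_one_sub, coeff_W, rep_ser, coeff_one_subst h0, fr, coeff_map, coeff_V, frobenius_def,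
      show (X : PowerSeries F) ^ p = X * X ^ (k + 1) by rw [hk]; ring]
    ring
  · simpa using fun c : constantCoeff (coeff 1 g.ser) = 0 => absurd c h
  · rw [Dv_apply, map_sub, W_vv, vv, rep_rep, rep_rep]
    congr 2
    apply rep_congr
    rw [subst_pow (hsb (Vc p F).cc), subst_X (hsb (Vc p F).cc), pow_p (Vc p F).ser]
    rfl

theorem Dv_xx : Dv p F (xx _) = 0 :=
  vv_inj (p := p) (by rw [vv_Dv, rep_xx, map_zero]; exact sub_self _)

theorem Dv_pair (a : LP p F) {n : ℕ} (h : X ^ n ∣ a.φ X - X) :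
    uu F ^ n ∣ (Dv p F (Cv.mk _ a.γ.val a.γ.cc)).ser := by
  have hh : IsHom ((FO p F).map (a.φ : PowerSeries F →+* PowerSeries F)).toFG (FO p F).toFG
      a.γ.val := (InvSeries.smul_eq_iff_isHom _ _ _).1 a.law
  have h1 : p • Cv.mk (FO p F) a.γ.val a.γ.cc = hmap hh (p • xx _) := by
    rw [map_nsmul]
    exact congrArg _ (Cv.ext (hmap_xx hh).symm)
  let π := Ideal.Quotient.mk (Ideal.span {(X ^ n : PowerSeries F)})
  have h2 : ((FO p F).map (a.φ : PowerSeries F →+* PowerSeries F)).map π = (FO p F).map π := by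
    rw [Law.map_map, FO_map, FO_map]
    exact hzn_congr p fun _ _ _ => Ideal.Quotient.eq.2 (Ideal.mem_span_singleton.2 h)
  have h3 : PowerSeries.map π (p • xx ((FO p F).map (a.φ : _ →+* _))).ser =
      PowerSeries.map π (p • xx (FO p F)).ser := by
    rw [← zmap_ser π h2, ← zmap_ser π rfl, map_nsmul, map_nsmul, zmap_xx, zmap_xx]
  rw [uu_pow]
  refine C_dvd_expand (p := p) ?_
  change _ ∣ (vv _ p _).ser
  rw [vv_Dv, dvd_sub_iff, h1, hmap_ser, rep_ser, C_dvd_iff]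
  intro i
  rw [← Ideal.mem_span_singleton, ← Ideal.Quotient.eq_zero_iff_mem, ← coeff_map, map_sub,
    map_sb _ (Cv.cc _), map_sb _ (Cv.cc _), h3, Cv.ser_mk, sub_self, map_zero]

/-- endomorphisms as curves -/
def cv : OO p F →+ Cv (H0 p F) :=
  AddMonoidHom.mk' (fun f => Cv.mk _ f.val f.constantCoeff_val) fun _ _ => rfl

/-- the constant lift -/
def lif (y : OO p F) : Cv (FO p F) :=
  Cv.mk _ (PowerSeries.map C y.val) (cc_map _ y.constantCoeff_val)

omit [CharP F p] in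
theorem red_lif (y : OO p F) : red (lif y).ser = y.val := by
  ext i
  simp [red, lif]

theorem main (a : LP p F) {n l : ℕ} {y : OO p F} {f : Cv (FO p F)} (hf : red f.ser = y.val)
    (h : PP n (p ^ l • f)) (e : red a.γ.val = (1 + (p : OO p F) ^ l * y).val) :
    ¬ X ^ (n + 1) ∣ a.φ X - X := fun c => by
  refine h.not (g := Cv.mk _ a.γ.val a.γ.cc - xx _) (u_dvd.2 ?_)
    (by rw [map_sub, Dv_xx, sub_zero]; exact Dv_pair a c)
  have h1 : zmap constantCoeff (FO_red p) (Cv.mk _ a.γ.val a.γ.cc) = cv (1 + p ^ l • y) :=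
    Cv.ext (by rw [nsmul_eq_mul, Nat.cast_pow]; exact e)
  have h2 : zmap constantCoeff (FO_red p) f = cv y := Cv.ext hf
  have h3 : cv (1 : OO p F) = xx _ := rfl
  have h4 : ∀ z : Cv (FO p F), red z.ser = (zmap (constantCoeff (R := F)) (FO_red p) z).ser :=
    fun z => (zmap_ser (constantCoeff (R := F)) (FO_red p) z).symm
  rw [h4, map_sub, map_sub, map_nsmul _ (p ^ l) f, h1, h2, zmap_xx, map_add, map_nsmul _ (p ^ l) y,
    h3, add_sub_cancel_left, sub_self, Cv.ser_zero]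

variable (hF : Nat.card F = p ^ 2)

theorem keat_odd (l : ℕ) (a : (Q0 hF).G1) (y : OO p F) (hy : (Q0 hF).r y ≠ 0)
    (e : (Q0 hF).emb a = 1 + (p : OO p F) ^ l * (y * (Q0 hF).S)) :
    ¬ Dep (act0 hF a) (lev1 p l) := by
  have h : ∀ l, PP (lev1 p l) (p ^ l • vv _ p (lif y)) := fun l => by
    induction l with
    | zero => rw [pow_zero, one_smul]; exact base1 (pow_card_eq hF) (by rw [red_lif]; exact hy)
    | succ l ih => rw [pow_succ', mul_smul]; exact ih.step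
  refine main (lf hF a) ?_ (h l) ((lf_γ hF a).trans (congrArg EndF.val e))
  rw [vv, rep_ser, red, map_sb _ ccp, map_pow, map_X, ← red, red_lif]
  rfl

theorem keat_even (l : ℕ) (a : (Q0 hF).G1) (y : OO p F) (hy : (Q0 hF).r y ^ p ≠ (Q0 hF).r y)
    (e : (Q0 hF).emb a = 1 + (p : OO p F) ^ (l + 1) * y) :
    ¬ Dep (act0 hF a) (lev0 p (l + 1)) := by
  have h : ∀ l, PP (lev0 p l) (p ^ l • lif y) := fun l => by
    induction l with
    | zero => rw [pow_zero, one_smul]; exact base0 (pow_card_eq hF) (by rw [red_lif]; exact hy)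
    | succ l ih => rw [pow_succ', mul_smul]; exact ih.step
  exact main (lf hF a) (red_lif y) (h _) ((lf_γ hF a).trans (congrArg EndF.val e))

theorem vv_FO : P251.F.vv p 1 (FO p F) = X := by
  have h := congrArg (fun z => coeff (p ^ 1) z.ser) (p_xx (p := p) (F := F))
  simp only [Cv.ser_nsmul, xx_ser, X_subst, vv, rep_ser, coeff_subst_X_pow hp.out.ne_zero, pow_one,
    dvd_refl, if_true, Nat.div_self hp.out.pos, coeff_V] at h
  rw [P251.F.vv, pow_one]
  exact h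

/-- the action on the parameter -/
theorem phi_X (a : LP p F) : X * a.γ.c 0 ^ p = a.γ.c 0 * a.φ X := by
  have h := (vv_smul_of_zero p 1 ((FO p F).map (a.φ : PowerSeries F →+* PowerSeries F)) a.γ
    fun i hi => by rw [Nat.lt_one_iff.1 hi, vv_zero, CharP.cast_eq_zero]).2
  rwa [a.law, vv_map, vv_FO, pow_one] at h

theorem dep_one (a : (Q0 hF).G1) : Dep (act0 hF a) 1 := by
  have h1 : constantCoeff ((lf hF a).γ.c 0) = 1 :=
    (congrArg (coeff 1) (lf_γ hF a)).trans ((Q0 hF).r_emb a)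
  obtain ⟨t, e⟩ : X ∣ (lf hF a).γ.c 0 ^ p - (lf hF a).γ.c 0 := X_dvd_iff.2 (by simp [h1])
  refine (IsUnit.dvd_mul_left (lf hF a).γ.isUnit).1 ⟨t, ?_⟩
  change (lf hF a).γ.c 0 * ((lf hF a).φ X - X) = _
  rw [mul_sub, ← phi_X, mul_comm _ X, ← mul_sub, e]
  ring

end Vale.Agent.P221X.Qt.Kt
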