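import Vale.Agent.P221X.GD.LPair
import Vale.Agent.P261Z.N.Rgex
import Vale.Agent.P261Z.N.Uni
import Vale.Agent.P261Z.N.Log
import Vale.Agent.P261Z.N.Ltd
import Mathlib.RingTheory.MvPowerSeries.Rename

/-!
# P221X, block GD: the Lubin-Tate pairs in height two

`FO p F` is the law of Hazewinkel with `v₁ = u`, `v₂ = 1` over `F[[u]]`, `H0 p F` its reduction.
The reduction `red : LPair (FO p F) →* LPair (H0 p F)` is bijective if `F` has `p ^ 2` elements.
-/

noncomputable section

namespace Vale.Agent.P221X.Qt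

open Vale.Agent.P217 Vale.Agent.P251.F Vale.Agent.P261Z Vale.Agent.P261Z.N PowerSeries

variable (p : ℕ) [hp : Fact p.Prime] (F : Type) [Field F]

/-- the law with `v₁ = u`, `v₂ = 1` -/
def FO : Law (PowerSeries F) := hzn p 2 fun _ => X

/-- the law with `v₁ = 0`, `v₂ = 1` -/
def H0 : Law F := hzn p 2 0

/-- the big group -/
abbrev LP : Type := LPair (FO p F)

/-- the big group over the residue field -/
abbrev LP0 : Type := LPair (H0 p F)

variable {F}

theorem FO_map {B : Type} [CommRing B] (φ : PowerSeries F →+* B) :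
    (FO p F).map φ = hzn p 2 fun _ => φ X := hzn_map p φ 2 _

theorem H0_map {B : Type} [CommRing B] (φ : F →+* B) : (H0 p F).map φ = hzn p 2 0 := by
  rw [H0, hzn_map]
  exact hzn_congr p fun _ _ _ => map_zero φ

theorem FO_red : (FO p F).map (constantCoeff (R := F)) = H0 p F := by
  rw [FO_map, H0]
  exact hzn_congr p fun _ _ _ => constantCoeff_X

variable {p}

/-! ### Automorphisms of `F[[u]]` -/

theorem cc_aut (φ : PowerSeries F ≃+* PowerSeries F) {f : PowerSeries F}
    (hf : constantCoeff f = 0) : constantCoeff (φ f) = 0 := by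
  by_contra h
  have h1 : IsUnit (φ f) := isUnit_iff_constantCoeff.2 (IsUnit.mk0 _ h)
  have h2 := isUnit_iff_constantCoeff.1 ((isUnit_map_iff φ f).1 h1)
  rw [hf] at h2
  exact not_isUnit_zero h2

theorem eq_C_of_pow [CharP F p] {n : ℕ} (hn : n ≠ 0) {x : PowerSeries F}
    (hx : x ^ p ^ n = x) : x = C (constantCoeff x) := by
  have : CharP (PowerSeries F) p := charP_of_injective_ringHom (C_injective (R := F)) p
  obtain ⟨m, hm⟩ : ∃ m, p ^ n = m + 2 :=
    ⟨p ^ n - 2, by have := Nat.one_lt_pow hn hp.out.one_lt; omega⟩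
  have h1 : (x - C (constantCoeff x)) ^ p ^ n = x - C (constantCoeff x) := by
    rw [sub_pow_char_pow, ← map_pow, ← map_pow, hx]
  have h0 : constantCoeff (x - C (constantCoeff x)) = 0 := by simp
  generalize hy : x - C (constantCoeff x) = y at h0 h1
  have h2 : y * (y ^ (m + 1) - 1) = 0 := by rw [mul_sub, ← pow_succ', mul_one, ← hm, h1, sub_self]
  rcases mul_eq_zero.1 h2 with h3 | h3
  · exact sub_eq_zero.1 (hy.trans h3)
  · have h4 := congrArg constantCoeff h3
    simp [h0] at h4

theorem charP_of_card (hF : Nat.card F = p ^ 2) : CharP F p := by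
  have : Finite F := Nat.finite_of_card_ne_zero (by rw [hF]; exact pow_ne_zero _ hp.out.ne_zero)
  have := Fintype.ofFinite F
  refine (CharP.charP_iff_prime_eq_zero hp.out).2 ?_
  have h := FiniteField.cast_card_eq_zero F
  rw [← Nat.card_eq_fintype_card, hF, Nat.cast_pow] at h
  exact pow_eq_zero_iff two_ne_zero |>.1 h

theorem pow_card_eq (hF : Nat.card F = p ^ 2) (c : F) : c ^ p ^ 2 = c := by
  have : Finite F := Nat.finite_of_card_ne_zero (by rw [hF]; exact pow_ne_zero _ hp.out.ne_zero)
  have := Fintype.ofFinite F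
  rw [← hF, Nat.card_eq_fintype_card, FiniteField.pow_card]

theorem aut_C (hF : Nat.card F = p ^ 2) (φ : PowerSeries F ≃+* PowerSeries F) (c : F) :
    φ (C c) = C (constantCoeff (φ (C c))) := by
  have := charP_of_card hF
  exact eq_C_of_pow (p := p) two_ne_zero (by rw [← map_pow, ← map_pow, pow_card_eq hF])

/-- the automorphism of the residue field -/
def resAut (hF : Nat.card F = p ^ 2) : (PowerSeries F ≃+* PowerSeries F) →* (F ≃+* F) where
  toFun φ :=
    { toFun := fun c => constantCoeff (φ (C c))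
      invFun := fun c => constantCoeff (φ.symm (C c))
      left_inv := fun c => by
        simp only
        rw [← aut_C hF, RingEquiv.symm_apply_apply, constantCoeff_C]
      right_inv := fun c => by
        simp only
        rw [← aut_C hF, RingEquiv.apply_symm_apply, constantCoeff_C]
      map_mul' := fun a b => by simp only [map_mul]
      map_add' := fun a b => by simp only [map_add] }
  map_one' := RingEquiv.ext fun c => constantCoeff_C c
  map_mul' φ ψ := RingEquiv.ext fun c => by
    change constantCoeff (φ (ψ (C c))) = constantCoeff (φ (C (constantCoeff (ψ (C c)))))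
    rw [← aut_C hF]

theorem aut_C' (hF : Nat.card F = p ^ 2) (φ : PowerSeries F ≃+* PowerSeries F) (c : F) :
    φ (C c) = C (resAut hF φ c) := aut_C hF φ c

theorem cc_comp (hF : Nat.card F = p ^ 2) (φ : PowerSeries F ≃+* PowerSeries F) :
    (constantCoeff (R := F)).comp (φ : PowerSeries F →+* PowerSeries F) =
      ((resAut hF φ : F ≃+* F) : F →+* F).comp (constantCoeff (R := F)) := by
  refine RingHom.ext fun f => ?_
  have h := cc_aut φ (f := f - C (constantCoeff f)) (by simp)
  rw [map_sub, map_sub, sub_eq_zero] at h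
  exact h

/-- the reduction -/
def red (hF : Nat.card F = p ^ 2) : LP p F →* LP0 p F where
  toFun a := ⟨resAut hF a.φ, InvSeries.map (constantCoeff (R := F)) a.γ, by
    have h := congrArg (Law.map (constantCoeff (R := F))) a.law
    rwa [InvSeries.map_smul, Law.map_map, cc_comp hF, ← Law.map_map, FO_red] at h⟩
  map_one' := LPair.ext (map_one _) (map_one _)
  map_mul' a b := LPair.ext (map_mul _ _ _) (by
    simp only [LPair.mul_γ, map_mul, InvSeries.map_map, cc_comp hF])

theorem red_φ (hF : Nat.card F = p ^ 2) (a : LP p F) : (red hF a).φ = resAut hF a.φ := rfl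

theorem red_γ (hF : Nat.card F = p ^ 2) (a : LP p F) :
    (red hF a).γ = InvSeries.map (constantCoeff (R := F)) a.γ := rfl

theorem hUNIC : UNIC p := unic (exd (pser p)) ltu

theorem red_injective (hF : Nat.card F = p ^ 2) : Function.Injective (red hF) := by
  intro a b h
  have : IsHausdorff (Ev.IX Unit F) (PowerSeries F) := Rx.haus
  have e : a.γ • hzn p 2 (fun _ => a.φ X) = b.γ • hzn p 2 fun _ => b.φ X := by
    have h1 := a.law
    have h2 := b.law
    rw [FO_map] at h1 h2
    exact h1.trans h2.symm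
  have hX : ∀ φ : PowerSeries F ≃+* PowerSeries F, φ X ∈ Ev.IX Unit F :=
    fun φ => Ev.mem_IX.2 (cc_aut φ constantCoeff_X)
  obtain ⟨h1, h2⟩ := hUNIC 2 F two_ne_zero hF (PowerSeries F) (Ev.IX Unit F) (C (R := F)) _ _ _ _
    (fun _ _ _ => hX _) (fun _ _ _ => hX _) e fun i => Ideal.le_radical (Ev.mem_IX.2 (by
      have h3 := congrArg (fun x : LP0 p F => x.γ.c i) h
      simp only [red_γ, InvSeries.c_map] at h3
      change constantCoeff (a.γ.c i - b.γ.c i) = 0
      rw [map_sub, h3, sub_self]))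
  refine LPair.ext (RingEquiv.ext fun f => ?_) h2
  refine RingHom.congr_fun (Ev.hom_ext (Ev.IX Unit F)
    (E := (a.φ : PowerSeries F →+* PowerSeries F)) (E' := (b.φ : PowerSeries F →+* PowerSeries F))
    (fun c => ?_) (fun _ => h1 1 le_rfl one_lt_two) fun _ => hX _) f
  have h3 : resAut hF a.φ = resAut hF b.φ := congrArg LPair.φ h
  exact (aut_C' hF a.φ c).trans (h3 ▸ (aut_C' hF b.φ c).symm)

/-! ### Existence of lifts -/

/-- the identification of the base rings -/
def toO (F : Type) [Field F] : RR 1 F ≃ₐ[F] PowerSeries F :=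
  MvPowerSeries.renameEquiv F (Equiv.ofUnique (Fin 1) Unit)

theorem toO_X (i : Fin 1) : toO F (MvPowerSeries.X i) = X := MvPowerSeries.rename_X _ i

theorem cc_toO (f : RR 1 F) : constantCoeff (toO F f) = MvPowerSeries.constantCoeff f :=
  MvPowerSeries.constantCoeff_rename _ f

theorem coeff_toO (n : ℕ) (f : RR 1 F) :
    coeff n (toO F f) = MvPowerSeries.coeff (Finsupp.single 0 n) f := by
  have h := MvPowerSeries.coeff_embDomain_rename (Equiv.ofUnique (Fin 1) Unit).toEmbedding f
    (Finsupp.single 0 n)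
  rw [Finsupp.embDomain_single] at h
  exact h

theorem FR_toO : (FR p 1 1 F).map ((toO F).toRingEquiv : RR 1 F →+* PowerSeries F) = FO p F := by
  rw [FR, Fx_map, Fx, FO]
  refine hzn_congr p fun i h1 h2 => ?_
  obtain rfl : i = 1 + ((0 : Fin 1) : ℕ) := by simp; omega
  rw [exh_add]
  exact toO_X 0

theorem honda (hF : Nat.card F = p ^ 2) : HondaOver p 2 (H0 p F).toFG := by
  obtain ⟨D, hD⟩ := exd (pser p) 2 F two_ne_zero hF
  have e : D.H = H0 p F := (Law.map_id _).symm.trans (Un.H_map hD (RingHom.id F))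
  exact e ▸ D.honda

theorem exists_lift (hF : Nat.card F = p ^ 2) :
    ∃ L : AutF (H0 p F).toFG → LP p F, (∀ g c, (L g).φ (C c) = C c) ∧
      (∀ g, PowerSeries.map (constantCoeff (R := F)) (L g).γ.val = g.val) ∧
      ∀ n, ∃ m, ∀ g ∈ AutF.congr (H0 p F).toFG m, X ^ n ∣ (L g).φ X - X := by
  obtain ⟨D, hD⟩ := exd (pser p) 2 F two_ne_zero hF
  obtain ⟨A, hA⟩ := rgex hUNIC 2 F D hD 1 1 le_rfl rfl F (RingHom.id F)
  have e : D.H = H0 p F := (Law.map_id _).symm.trans (Un.H_map hD (RingHom.id F))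
  rw [← e]
  let ph : D.GG → (RR 1 F ≃+* RR 1 F) := fun g => RingEquiv.ofRingHom (A.ph g) (A.ph g⁻¹)
    (by rw [← A.ph_mul, mul_inv_cancel, A.ph_one]) (by rw [← A.ph_mul, inv_mul_cancel, A.ph_one])
  let t : RR 1 F ≃+* PowerSeries F := (toO F).toRingEquiv
  have ht : t.symm X = MvPowerSeries.X 0 := t.symm_apply_eq.2 (toO_X 0).symm
  refine ⟨fun g => ⟨(t.symm.trans (ph g)).trans t,
    InvSeries.map (t : RR 1 F →+* PowerSeries F) (A.ser g), ?_⟩, fun g c => ?_, fun g => ?_,
    fun n => ?_⟩
  · have h := congrArg (Law.map (t : RR 1 F →+* PowerSeries F)) (A.law g)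
    rw [InvSeries.map_smul, FR_toO, Law.map_map] at h
    rw [← FR_toO, Law.map_map, FR_toO, ← h]
    congr 2
    refine RingHom.ext fun f => ?_
    change t (A.phi g (t.symm (t f))) = t (A.phi g f)
    rw [RingEquiv.symm_apply_apply]
  · change toO F (A.phi g ((toO F).symm (algebraMap F _ c))) = algebraMap F _ c
    rw [AlgEquiv.commutes, AlgHom.commutes, AlgEquiv.commutes]
  · ext i
    rcases i with _ | i
    · rw [coeff_map, coeff_zero_eq_constantCoeff_apply, coeff_zero_eq_constantCoeff_apply,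
        InvSeries.cc, g.constantCoeff_val, map_zero]
    · change constantCoeff (toO F ((A.ser g).c i)) = _
      rw [cc_toO, hA g i]
      rfl
  · have h1 : ∀ i, ∃ m, ∀ g ∈ AutF.congr D.H.toFG m,
        coeff i (t (A.phi g (MvPowerSeries.X 0)) - X) = 0 := fun i => by
      obtain ⟨m, hm⟩ := AutF.isLocallyConstant_iff.1
        (A.cont_phi (MvPowerSeries.X 0) (Finsupp.single 0 i)) 1
      refine ⟨m, fun g hg => ?_⟩
      have h2 := hm g hg
      rw [map_one, AlgHom.one_apply, ← coeff_toO, ← coeff_toO, toO_X] at h2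
      rw [map_sub, sub_eq_zero]
      exact h2
    choose m hm using h1
    refine ⟨(Finset.range n).sup m, fun g hg => X_pow_dvd_iff.2 fun i hi => ?_⟩
    change coeff i (t (A.phi g (t.symm X)) - X) = 0
    rw [ht]
    exact hm i g fun j hj => hg j (hj.trans_le (Finset.le_sup (Finset.mem_range.2 hi)))

/-- automorphisms of the coefficients -/
def mapAut : (F ≃+* F) →* (PowerSeries F ≃+* PowerSeries F) where
  toFun σ := RingEquiv.ofRingHom (PowerSeries.map (σ : F →+* F)) (PowerSeries.map (σ.symm : F →+* F))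
    (by ext f n; simp) (by ext f n; simp)
  map_one' := by ext f n; rfl
  map_mul' σ τ := by ext f n; rfl

theorem coeff_mapAut (σ : F ≃+* F) (f : PowerSeries F) (n : ℕ) :
    coeff n (mapAut σ f) = σ (coeff n f) := rfl

theorem mapAut_X (σ : F ≃+* F) : mapAut σ X = X := map_X (σ : F →+* F)

theorem mapAut_C (σ : F ≃+* F) (c : F) : mapAut σ (C c) = C (σ c) := map_C (σ : F →+* F) c

variable (p) in
/-- the Galois elements -/
def gal : (F ≃+* F) →* LP p F where
  toFun σ := ⟨mapAut σ, 1, by
    rw [one_smul, FO_map]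
    exact hzn_congr p fun _ _ _ => mapAut_X σ⟩
  map_one' := LPair.ext (map_one _) rfl
  map_mul' σ τ := LPair.ext (map_mul _ _ _) (by simp only [LPair.mul_γ, map_one, mul_one])

theorem gal_φ (σ : F ≃+* F) : (gal p σ).φ = mapAut σ := rfl

theorem gal_γ (σ : F ≃+* F) : (gal p σ).γ = 1 := rfl

theorem resAut_eq (hF : Nat.card F = p ^ 2) {φ : PowerSeries F ≃+* PowerSeries F} {σ : F ≃+* F}
    (h : ∀ c, φ (C c) = C (σ c)) : resAut hF φ = σ :=
  RingEquiv.ext fun c => C_injective ((aut_C' hF φ c).symm.trans (h c))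

theorem red_gal_φ (hF : Nat.card F = p ^ 2) (σ : F ≃+* F) : (red hF (gal p σ)).φ = σ :=
  resAut_eq hF (mapAut_C σ)

theorem red_gal_γ (hF : Nat.card F = p ^ 2) (σ : F ≃+* F) : (red hF (gal p σ)).γ = 1 :=
  map_one _

/-- automorphisms of the law as pairs -/
def ofAut : AutF (H0 p F).toFG →* LP0 p F where
  toFun g := ⟨1, ⟨g.val, g.constantCoeff_val, g.cf_one_isUnit⟩, by
    rw [LPair.coe_one, Law.map_id, InvSeries.smul_eq_iff]
    exact g.isIso⟩
  map_one' := rfl
  map_mul' f g := LPair.ext (mul_one _).symm (by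
    simp only [LPair.mul_γ, LPair.coe_one, InvSeries.map_id]
    rfl)

theorem ofAut_φ (g : AutF (H0 p F).toFG) : (ofAut g).φ = 1 := rfl

theorem ofAut_γ (g : AutF (H0 p F).toFG) : (ofAut g).γ.val = g.val := rfl

theorem ofAut_injective : Function.Injective (ofAut (p := p) (F := F)) := fun _ _ h =>
  AutF.ext (congrArg (fun x : LP0 p F => x.γ.val) h)

/-- the automorphism of the law given by a pair -/
def toAut (a : LP0 p F) : AutF (H0 p F).toFG := AutF.mk a.γ.val (by
  have h := a.law
  rw [H0_map] at h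
  exact (InvSeries.smul_eq_iff _ _ _).1 h)

theorem toAut_val (a : LP0 p F) : (toAut a).val = a.γ.val := rfl

theorem eq_ofAut_mul (hF : Nat.card F = p ^ 2) (a : LP0 p F) :
    a = ofAut (toAut a) * red hF (gal p a.φ) :=
  LPair.ext (by rw [LPair.mul_φ, ofAut_φ, red_gal_φ, one_mul])
    (by rw [LPair.mul_γ, red_gal_γ, map_one, mul_one]; rfl)

theorem red_eq_ofAut (hF : Nat.card F = p ^ 2) {a : LP p F} {g : AutF (H0 p F).toFG}
    (h1 : ∀ c, a.φ (C c) = C c)
    (h2 : PowerSeries.map (constantCoeff (R := F)) a.γ.val = g.val) : red hF a = ofAut g :=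
  LPair.ext (resAut_eq hF h1) (InvSeries.ext h2)

theorem red_surjective (hF : Nat.card F = p ^ 2) : Function.Surjective (red hF) := by
  intro a
  obtain ⟨L, h1, h2, -⟩ := exists_lift hF
  exact ⟨L (toAut a) * gal p a.φ, by
    rw [map_mul, red_eq_ofAut hF (h1 _) (h2 _), ← eq_ofAut_mul]⟩

/-- the reduction is an isomorphism -/
def redE (hF : Nat.card F = p ^ 2) : LP p F ≃* LP0 p F :=
  MulEquiv.ofBijective (red hF) ⟨red_injective hF, red_surjective hF⟩

theorem redE_apply (hF : Nat.card F = p ^ 2) (a : LP p F) : redE hF a = red hF a := rfl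

/-- the lift of an automorphism of the law over the residue field -/
def lift (hF : Nat.card F = p ^ 2) : AutF (H0 p F).toFG →* LP p F :=
  (redE hF).symm.toMonoidHom.comp ofAut

theorem red_lift (hF : Nat.card F = p ^ 2) (g : AutF (H0 p F).toFG) :
    red hF (lift hF g) = ofAut g := (redE hF).apply_symm_apply _

theorem lift_injective (hF : Nat.card F = p ^ 2) : Function.Injective (lift hF) :=
  (redE hF).symm.injective.comp ofAut_injective

theorem eq_lift (hF : Nat.card F = p ^ 2) {a : LP p F} {g : AutF (H0 p F).toFG}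
    (h1 : ∀ c, a.φ (C c) = C c)
    (h2 : PowerSeries.map (constantCoeff (R := F)) a.γ.val = g.val) : a = lift hF g :=
  red_injective hF (by rw [red_lift, red_eq_ofAut hF h1 h2])

theorem lift_C (hF : Nat.card F = p ^ 2) (g : AutF (H0 p F).toFG) (c : F) :
    (lift hF g).φ (C c) = C c := by
  rw [aut_C' hF, ← red_φ, red_lift]
  rfl

theorem lift_γ (hF : Nat.card F = p ^ 2) (g : AutF (H0 p F).toFG) :
    PowerSeries.map (constantCoeff (R := F)) (lift hF g).γ.val = g.val :=
  congrArg (fun x : LP0 p F => x.γ.val) (red_lift hF g)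

theorem lift_cont (hF : Nat.card F = p ^ 2) (n : ℕ) :
    ∃ m, ∀ g ∈ AutF.congr (H0 p F).toFG m, X ^ n ∣ (lift hF g).φ X - X := by
  obtain ⟨L, h1, h2, h3⟩ := exists_lift hF
  obtain ⟨m, hm⟩ := h3 n
  exact ⟨m, fun g hg => eq_lift hF (h1 g) (h2 g) ▸ hm g hg⟩

/-- every pair is a lift times a Galois element -/
theorem eq_lift_mul (hF : Nat.card F = p ^ 2) (a : LP p F) :
    a = lift hF (toAut (red hF a)) * gal p (resAut hF a.φ) :=
  red_injective hF (by rw [map_mul, red_lift]; exact eq_ofAut_mul hF _)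

/-- `u ↦ c u` -/
def rotR (c : Fˣ) : PowerSeries F ≃+* PowerSeries F :=
  RingEquiv.ofRingHom (rescale (c : F)) (rescale ((c⁻¹ : Fˣ) : F))
    (by rw [← rescale_mul, Units.inv_mul, rescale_one])
    (by rw [← rescale_mul, Units.mul_inv, rescale_one])

theorem rotR_apply (c : Fˣ) (f : PowerSeries F) : rotR c f = rescale (c : F) f := rfl

theorem rescale_C' (c a : F) : rescale c (C a) = C a := by
  ext n
  rw [coeff_rescale, coeff_C]
  split_ifs with hn
  · rw [hn, pow_zero, one_mul]
  · rw [mul_zero]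

theorem units_pow (hF : Nat.card F = p ^ 2) (c : Fˣ) : (c : F) ^ (p ^ 2 - 1) = 1 := by
  have h := pow_card_eq hF (c : F)
  have h1 : 0 < p ^ 2 := pow_pos hp.out.pos 2
  rw [show p ^ 2 = p ^ 2 - 1 + 1 by omega, pow_succ] at h
  exact (mul_eq_right₀ c.ne_zero).1 h

/-- the Teichmueller elements `(u ↦ c ^ (p - 1) u, x ↦ c x)` -/
def tei (hF : Nat.card F = p ^ 2) (c : Fˣ) : LP p F :=
  ⟨rotR (c ^ (p - 1)), InvSeries.lin (Units.map (C (R := F) : F →+* PowerSeries F) c), by
    rw [← eq_inv_smul_iff, FO_map]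
    refine Vale.Agent.P257.H80.haz_lin p _ fun k => ?_
    simp only [MvPolynomial.eval₂Hom_X', par]
    split_ifs with h1 h2
    · obtain rfl : k = 0 := by omega
      change rescale _ X = C (c : F) ^ _ * X
      rw [rescale_X, Units.val_pow_eq_pow_val, map_pow, zero_add, pow_one]
    · change 1 = C (c : F) ^ _ * 1
      rw [h2, ← map_pow, units_pow hF, map_one, mul_one]
    · rw [mul_zero]⟩

theorem tei_φ (hF : Nat.card F = p ^ 2) (c : Fˣ) (f : PowerSeries F) :
    (tei hF c).φ f = rescale ((c : F) ^ (p - 1)) f := by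
  rw [← Units.val_pow_eq_pow_val]; rfl

theorem tei_γ (hF : Nat.card F = p ^ 2) (c : Fˣ) :
    (tei hF c).γ = InvSeries.lin (Units.map (C (R := F) : F →+* PowerSeries F) c) := rfl

theorem tei_eq_lift (hF : Nat.card F = p ^ 2) (c : Fˣ) {g : AutF (H0 p F).toFG}
    (hg : g.val = C (c : F) * X) : tei hF c = lift hF g :=
  eq_lift hF (fun a => by rw [tei_φ, rescale_C']) (by
    rw [hg, tei_γ, InvSeries.lin_val, map_mul, map_C, map_X]
    simp)

/-- multiplication by an integer prime to `p` -/
theorem lift_mult (hF : Nat.card F = p ^ 2) {m : ℕ} {g : AutF (H0 p F).toFG}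
    (hg : g.val = multSeries (H0 p F).toFG m) :
    (lift hF g).φ = 1 := by
  have hu : IsUnit (coeff 1 (multSeries (FO p F).toFG m)) := by
    have h := g.cf_one_isUnit
    rw [AutF.cf, hg, coeff_one_multSeries] at h
    rw [coeff_one_multSeries, ← map_natCast (C (R := F))]
    exact h.map _
  let a : LP p F := ⟨1, ⟨multSeries (FO p F).toFG m, constantCoeff_multSeries _ _, hu⟩, by
    rw [LPair.coe_one, Law.map_id, InvSeries.smul_eq_iff_isHom]
    exact isHom_multSeries _ m⟩
  rw [← eq_lift hF (a := a) (fun _ => rfl) (by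
    rw [hg, ← FO_red]
    exact map_multSeries _ _ _)]

end Vale.Agent.P221X.Qt
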