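import Vale.Agent.P221X.GD.Q0
import Vale.Agent.P221X.Meas.KO

/-!
# P221X, block GD: the big group `G' = LP / μ_(p-1)`
-/

noncomputable section

namespace Vale.Agent.P221X.Qt

open Vale.Agent.P217 Vale.Agent.P251.F Vale.Agent.P261Z Vale.Agent.P261Z.N PowerSeries

variable {p : ℕ} [hp : Fact p.Prime] {F : Type} [Field F]

/-! ### The Galois action on the endomorphism ring -/

theorem H0_map' (σ : F →+* F) : (H0 p F).toFG.map σ = (H0 p F).toFG :=
  congrArg Law.toFG (H0_map p σ)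

variable (p) in
/-- the action on the coefficients -/
def galE (σ : F →+* F) : OO p F →+* OO p F where
  toFun f := EndF.mk (PowerSeries.map σ f.val) (by
    have h := f.isHom.mapL σ
    rwa [H0_map'] at h)
  map_one' := EndF.ext (map_X σ)
  map_mul' f g := EndF.ext (map_subst g.hasSubst f.val)
  map_zero' := EndF.ext (map_zero _)
  map_add' f g := EndF.ext (by
    have h := map_cons_subst σ (H0 p F).toFG f.constantCoeff_val g.constantCoeff_val
    rw [H0_map'] at h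
    exact h)

theorem galE_val (σ : F →+* F) (f : OO p F) : (galE p σ f).val = PowerSeries.map σ f.val := rfl

theorem gal_lfu (hF : Nat.card F = p ^ 2) (σ : F ≃+* F) (b : (OO p F)ˣ) :
    gal p σ * lfu hF b = lfu hF (Units.map (galE p (σ : F →+* F) : OO p F →* OO p F) b) * gal p σ := by
  refine red_injective hF ?_
  rw [map_mul, map_mul]
  change _ * red hF (lift hF _) = red hF (lift hF _) * _
  rw [red_lift, red_lift]
  refine LPair.ext ?_ ?_
  · rw [LPair.mul_φ, LPair.mul_φ, ofAut_φ, ofAut_φ, mul_one, one_mul]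
  · rw [LPair.mul_γ, LPair.mul_γ, red_gal_γ, red_gal_φ, map_one, one_mul, mul_one]
    rfl

variable [CharP F p]

theorem fix_of_pow (σ : F →+* F) {c : F} (h : c ^ p = c) : σ c = c := by
  obtain ⟨n, rfl⟩ := (mem_bot_iff_intCast p F).1 ((Subfield.mem_bot_iff_pow_eq_self F p).2 h)
  exact map_intCast σ n

variable (hF : Nat.card F = p ^ 2)

theorem galE_S (σ : F →+* F) : galE p σ (Q0 hF).S = (Q0 hF).S := EndF.ext (by
  rw [galE_val, Q0_S, map_pow, map_X])

theorem galE_t (σ : F →+* F) (c : F) : galE p σ ((Q0 hF).t c) = (Q0 hF).t (σ c) := EndF.ext (by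
  rw [galE_val, Q0_t, Q0_t, map_mul, map_C, map_X])

theorem r_galE (σ : F →+* F) (f : OO p F) : (Q0 hF).r (galE p σ f) = σ ((Q0 hF).r f) := rfl

theorem galE_mem (σ : F →+* F) {n : ℕ} {f : OO p F} (h : f ∈ (Q0 hF).I n) :
    galE p σ f ∈ (Q0 hF).I n := by
  obtain ⟨g, rfl⟩ := h
  exact ⟨galE p σ g, by rw [map_mul, map_pow, galE_S]⟩

/-- the Galois action on the principal units -/
def galG (σ : F →+* F) (a : (Q0 hF).G1) : (Q0 hF).G1 :=
  ⟨Units.map (galE p σ : OO p F →* OO p F) a, by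
    change (Q0 hF).r (galE p σ ((Q0 hF).emb a)) = 1
    rw [r_galE, QD.r_emb, map_one]⟩

theorem emb_galG (σ : F →+* F) (a : (Q0 hF).G1) :
    (Q0 hF).emb (galG hF σ a) = galE p σ ((Q0 hF).emb a) := rfl

theorem galG_mem (σ : F →+* F) {n : ℕ} {a : (Q0 hF).G1} (h : a ∈ (Q0 hF).Gf n) :
    galG hF σ a ∈ (Q0 hF).Gf n := by
  have h1 := galE_mem hF σ ((Q0 hF).mem_Gf.1 h)
  rwa [map_sub, map_one] at h1

theorem gal_lf (σ : F ≃+* F) (a : (Q0 hF).G1) :
    gal p σ * lf hF a = lf hF (galG hF (σ : F →+* F) a) * gal p σ := gal_lfu hF σ a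

/-! ### The big group -/

/-- the Teichmueller elements -/
def teiH : Fˣ →* LP p F := (lfu hF).comp (Q0 hF).tu

theorem teiH_apply (c : Fˣ) : teiH hF c = tei hF c := lfu_tu hF c

/-- the central subgroup `μ_(p-1)` -/
def mu : Subgroup (LP p F) := (powMonoidHom (p - 1) : Fˣ →* Fˣ).ker.map (teiH hF)

theorem mem_mu {a : LP p F} : a ∈ mu hF ↔ ∃ c : Fˣ, c ^ (p - 1) = 1 ∧ tei hF c = a := by
  simp only [mu, Subgroup.mem_map, MonoidHom.mem_ker, powMonoidHom_apply, teiH_apply]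

omit [CharP F p] in
theorem pow_p_of {c : Fˣ} (h : c ^ (p - 1) = 1) : (c : F) ^ p = c := by
  have h1 : (c : F) ^ (p - 1) = 1 := by rw [← Units.val_pow_eq_pow_val, h, Units.val_one]
  have h2 := hp.out.pos
  rw [show p = p - 1 + 1 by omega, pow_succ, h1, one_mul]

omit [CharP F p] in
theorem comm_of {b : (OO p F)ˣ} (h1 : ∀ f : OO p F, b * f = f * b)
    (h2 : ∀ σ : F →+* F, galE p σ b = b) (x : LP p F) : lfu hF b * x = x * lfu hF b := by
  obtain ⟨c, hc⟩ := eq_lfu_mul hF x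
  have h3 : b * c = c * b := Units.ext (h1 c)
  have h4 : ∀ σ : F ≃+* F, Units.map (galE p (σ : F →+* F) : OO p F →* OO p F) b = b :=
    fun σ => Units.ext (h2 σ)
  rw [hc, mul_assoc, gal_lfu, h4, ← mul_assoc, ← mul_assoc, ← map_mul, ← map_mul, h3]

theorem mu_comm {m : LP p F} (hm : m ∈ mu hF) (x : LP p F) : m * x = x * m := by
  obtain ⟨c, hc, rfl⟩ := (mem_mu hF).1 hm
  rw [← lfu_tu]
  exact comm_of hF (t_comm (Q0 hF) (pow_p_of hc))
    (fun σ => (galE_t hF σ c).trans (congrArg _ (fix_of_pow σ (pow_p_of hc)))) x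

instance : (mu hF).Normal := ⟨fun m hm x => by
  rwa [← mu_comm hF hm, mul_inv_cancel_right]⟩

theorem mu_φ {m : LP p F} (hm : m ∈ mu hF) : m.φ = 1 := by
  obtain ⟨c, hc, rfl⟩ := (mem_mu hF).1 hm
  refine RingEquiv.ext fun f => ?_
  rw [tei_φ, ← Units.val_pow_eq_pow_val, hc, Units.val_one, rescale_one]
  rfl

/-- the big group -/
def Big : Type := LP p F ⧸ mu hF

namespace Big

instance : Group (Big hF) := inferInstanceAs (Group (LP p F ⧸ mu hF))

/-- the projection -/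
def mk : LP p F →* Big hF := QuotientGroup.mk' (mu hF)

theorem mk_surjective : Function.Surjective (mk hF) := QuotientGroup.mk'_surjective _

theorem mk_eq_one {x : LP p F} : mk hF x = 1 ↔ x ∈ mu hF := QuotientGroup.eq_one_iff x

theorem mk_eq {x y : LP p F} : mk hF x = mk hF y ↔ x⁻¹ * y ∈ mu hF := QuotientGroup.eq

/-- the action on `F[[u]]` -/
def act : Big hF →* (PowerSeries F ≃+* PowerSeries F) :=
  QuotientGroup.lift (mu hF) (LPair.act _) fun _ => mu_φ hF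

theorem act_mk (x : LP p F) : act hF (mk hF x) = x.φ := rfl

instance : MulSemiringAction (Big hF) (PowerSeries F) := MulSemiringAction.compHom _ (act hF)

instance : MulSemiringAction (Big hF) (KK F) := MulSemiringAction.compHom _
  ((IsFractionRing.ringEquivOfRingEquivHom (PowerSeries F) (KK F)).comp (act hF))

theorem mk_smul (x : LP p F) (f : PowerSeries F) : mk hF x • f = x.φ f := rfl

theorem smul_alg (g : Big hF) (f : PowerSeries F) :
    g • algebraMap (PowerSeries F) (KK F) f = algebraMap (PowerSeries F) (KK F) (g • f) :=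
  IsFractionRing.ringEquivOfRingEquiv_algebraMap (act hF g) f

theorem smul_eq_toK {g : Big hF} {a : PowerSeries F ≃ₐ[F] PowerSeries F} (h : ∀ f, g • f = a f)
    (z : KK F) : g • z = toK a z := by
  obtain ⟨x, y, -, rfl⟩ := IsFractionRing.div_surjective (PowerSeries F) z
  rw [smul_div₀', map_div₀, smul_alg, smul_alg, toK_alg, toK_alg, h, h]

/-- the inclusion of the principal units -/
def inc : (Q0 hF).G1 →* Big hF := (mk hF).comp (lf hF)

theorem inc_apply (a : (Q0 hF).G1) : inc hF a = mk hF (lf hF a) := rfl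

theorem inc_smul (a : (Q0 hF).G1) (f : PowerSeries F) : inc hF a • f = act0 hF a f := rfl

theorem r_pow_of_mk {b c : (OO p F)ˣ} (h : mk hF (lfu hF b) = mk hF (lfu hF c)) :
    ∃ d : Fˣ, d ^ (p - 1) = 1 ∧ c = b * (Q0 hF).tu d := by
  obtain ⟨d, hd, e⟩ := (mem_mu hF).1 ((mk_eq hF).1 h)
  rw [← lfu_tu, ← map_inv, ← map_mul] at e
  exact ⟨d, hd, by rw [lfu_injective hF e, mul_inv_cancel_left]⟩

theorem inc_injective : Function.Injective (inc hF) := by
  intro a b h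
  obtain ⟨d, -, e⟩ := r_pow_of_mk hF h
  have h1 : (Q0 hF).r ((Q0 hF).emb b) = (Q0 hF).r ((Q0 hF).emb a * (Q0 hF).t d) :=
    congrArg (fun x : (OO p F)ˣ => (Q0 hF).r (x : OO p F)) e
  rw [map_mul, QD.r_emb, QD.r_emb, QD.r_t, one_mul] at h1
  have h2 : d = 1 := Units.ext h1.symm
  rw [h2, map_one, mul_one] at e
  exact Subtype.ext e.symm

theorem exists_dec (g : Big hF) :
    ∃ a c σ, g = inc hF a * (mk hF (tei hF c) * mk hF (gal p σ)) := by
  obtain ⟨x, rfl⟩ := mk_surjective hF g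
  obtain ⟨b, hb⟩ := eq_lfu_mul hF x
  let c : Fˣ := Units.map ((Q0 hF).r : OO p F →* F) b
  refine ⟨⟨b * ((Q0 hF).tu c)⁻¹, ?_⟩, c, resAut hF x.φ, ?_⟩
  · change (Q0 hF).r (b * (Q0 hF).t ((c⁻¹ : Fˣ) : F)) = 1
    rw [map_mul, QD.r_t]
    exact c.mul_inv
  · change _ = mk hF (lfu hF (b * ((Q0 hF).tu c)⁻¹)) * _
    rw [← map_mul, ← map_mul, ← lfu_tu, ← mul_assoc, ← map_mul, inv_mul_cancel_right, ← hb]

theorem conj_inc (g : Big hF) {n : ℕ} {a : (Q0 hF).G1} (ha : a ∈ (Q0 hF).Gf n) :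
    ∃ b ∈ (Q0 hF).Gf n, inc hF b = g * inc hF a * g⁻¹ := by
  obtain ⟨x, rfl⟩ := mk_surjective hF g
  obtain ⟨b, hb⟩ := eq_lfu_mul hF x
  refine ⟨_, conj_mem_Gf _ b (galG_mem hF (resAut hF x.φ : F →+* F) ha), ?_⟩
  rw [inc_apply, inc_apply, ← map_inv, ← map_mul, ← map_mul, lf_conj]
  congr 1
  conv_rhs => rw [hb, mul_assoc (lfu hF b), gal_lf]
  group

instance : ProG (Big hF) where
  N i := ((Q0 hF).Gf i).map (inc hF)
  normal i := ⟨by
    rintro _ ⟨a, ha, rfl⟩ g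
    exact conj_inc hF g ha⟩
  anti _ _ h := Subgroup.map_mono fun _ ha => (Q0 hF).I_anti h ha
  fin i := by
    have : Finite F := Nat.finite_of_card_ne_zero (hF ▸ pow_ne_zero 2 hp.out.ne_zero)
    have : Finite (F ≃+* F) := DFunLike.finite _
    have h1 : Finite (Big hF ⧸ (inc hF).range) := Finite.of_surjective
      (fun d : Fˣ × (F ≃+* F) => ((mk hF (tei hF d.1) * mk hF (gal p d.2))⁻¹ : Big hF)) fun y => by
        obtain ⟨g, rfl⟩ := QuotientGroup.mk_surjective y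
        obtain ⟨a, c, σ, h⟩ := exists_dec hF g⁻¹
        refine ⟨(c, σ), QuotientGroup.eq.2 ⟨a⁻¹, ?_⟩⟩
        rw [inv_eq_iff_eq_inv.1 h, map_inv]
        group
    refine ⟨?_⟩
    rw [Subgroup.index_map_of_injective _ (inc_injective hF)]
    exact mul_ne_zero (fin_Gf _ i).1 (Subgroup.finiteIndex_of_finite_quotient).1

theorem mem_N {i : ℕ} {g : Big hF} :
    g ∈ ProG.N (G := Big hF) i ↔ ∃ a ∈ (Q0 hF).Gf i, inc hF a = g := Iff.rfl

end Big

/-! ### Continuity -/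

omit hp [CharP F p] in
theorem dvd_sub_of_dep {a : PowerSeries F ≃ₐ[F] PowerSeries F} {n : ℕ} (h : Dep a n)
    (f : PowerSeries F) : (X : PowerSeries F) ^ (n + 1) ∣ a f - f := by
  have hX : (X : PowerSeries F) ∣ a X := X_dvd_iff.2 (cc_aut a.toRingEquiv constantCoeff_X)
  have key : ∀ m (f : PowerSeries F), (X : PowerSeries F) ^ min m (n + 1) ∣ a f - f := by
    intro m
    induction m with
    | zero => intro f; simp
    | succ m ih =>
      intro f
      obtain ⟨g, hg⟩ := X_dvd_iff.2 (show constantCoeff (f - C (constantCoeff f)) = 0 by simp)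
      have e : a f - f = a X * (a g - g) + (a X - X) * g := by
        have h1 : a (C (constantCoeff f)) = C (constantCoeff f) := a.commutes _
        rw [sub_eq_iff_eq_add.1 hg, map_add, map_mul, h1]
        ring
      rw [e]
      refine dvd_add ?_ (((pow_dvd_pow _ (min_le_right _ _)).trans h).mul_right _)
      refine (pow_dvd_pow _ (show min (m + 1) (n + 1) ≤ min m (n + 1) + 1 by omega)).trans ?_
      rw [pow_succ']
      exact mul_dvd_mul hX (ih g)
  simpa using key (n + 1) f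

omit hp [CharP F p] in
theorem ge_of_dvd {n : ℕ} {f : PowerSeries F} (h : (X : PowerSeries F) ^ n ∣ f) :
    algebraMap (PowerSeries F) (KK F) f ∈ KK.ge (n : ℤ) := by
  obtain ⟨g, rfl⟩ := h
  rw [map_mul, ← uz_nat]
  simpa using KK.mul_mem_ge (KK.uz_mem_ge (n : ℤ)) (KK.algebraMap_mem_ge g)

omit hp [CharP F p] in
theorem toK_uz_neg (a : PowerSeries F ≃ₐ[F] PowerSeries F) (m : ℕ) :
    toK a (KK.uz (-(m : ℤ))) ∈ KK.ge (-(m : ℤ)) := by
  obtain ⟨e, he⟩ := X_dvd_iff.2 (cc_aut a.symm.toRingEquiv (constantCoeff_X (R := F)))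
  have h1 : X = a X * a e := by
    rw [← map_mul, ← he]
    exact (a.apply_symm_apply X).symm
  have h2 : (KK.uz (m : ℤ) : KK F) * KK.uz (-(m : ℤ)) = 1 := by
    rw [← KK.uz_add, add_neg_cancel, KK.uz_zero]
  have h3 : (KK.uz (m : ℤ) : KK F) =
      toK a (KK.uz (m : ℤ)) * algebraMap (PowerSeries F) (KK F) (a e ^ m) := by
    rw [uz_nat, toK_alg, ← map_mul, map_pow a, ← mul_pow, ← h1]
  have h4 := congrArg (toK a) h2
  rw [map_mul, map_one] at h4
  have h5 : toK a (KK.uz (-(m : ℤ))) =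
      KK.uz (-(m : ℤ)) * algebraMap (PowerSeries F) (KK F) (a e ^ m) := by
    linear_combination (-toK a (KK.uz (-(m : ℤ)))) * h2 +
      (toK a (KK.uz (-(m : ℤ))) * KK.uz (-(m : ℤ))) * h3 +
      (KK.uz (-(m : ℤ)) * algebraMap (PowerSeries F) (KK F) (a e ^ m)) * h4
  rw [h5]
  simpa using KK.mul_mem_ge (KK.uz_mem_ge (-(m : ℤ))) (KK.algebraMap_mem_ge (a e ^ m))

omit hp [CharP F p] in
theorem toK_cont (z : KK F) (k : ℤ) : ∃ n : ℕ, ∀ a : PowerSeries F ≃ₐ[F] PowerSeries F, Dep a n →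
    toK a z - z ∈ KK.ge k := by
  obtain ⟨N, hN⟩ := KK.exists_ge z
  obtain ⟨m, hm⟩ : ∃ m : ℕ, 0 ≤ (m : ℤ) + N := ⟨N.natAbs, by omega⟩
  obtain ⟨f, hf⟩ := exists_alg_of_ge (KK.ge_mono hm (KK.mul_mem_ge (KK.uz_mem_ge (m : ℤ)) hN))
  refine ⟨k.natAbs + m + N.natAbs, fun a ha => ?_⟩
  have h2 : (KK.uz (m : ℤ) : KK F) * KK.uz (-(m : ℤ)) = 1 := by
    rw [← KK.uz_add, add_neg_cancel, KK.uz_zero]
  have h4 := congrArg (toK a) h2
  have h5 := congrArg (toK a) hf
  rw [map_mul, map_one] at h4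
  rw [map_mul] at h5
  have h6 := ge_of_dvd (dvd_sub_of_dep ha f)
  have h7 := ge_of_dvd (dvd_sub_of_dep ha (X ^ m))
  rw [map_sub, ← toK_alg] at h6 h7
  rw [← uz_nat] at h7
  have h8 := KK.mul_mem_ge (toK_uz_neg a m) (sub_mem (KK.ge_mono (by omega) h6)
    (KK.ge_mono (m := k + m) (by omega) (KK.mul_mem_ge h7 hN)))
  refine KK.ge_mono (by omega) (Eq.subst ?_ h8)
  linear_combination (-toK a (KK.uz (-(m : ℤ)))) * h5 + (toK a (KK.uz (-(m : ℤ)))) * hf +
    (toK a z - z) * h4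

namespace Big

instance : ActK (Big hF) F where
  alg := smul_alg hF
  cont z k := by
    obtain ⟨n, hn⟩ := toK_cont z k
    obtain ⟨N, hN⟩ := act0_cont hF n
    refine ⟨N, ?_⟩
    rintro _ ⟨a, ha, rfl⟩
    rw [smul_eq_toK hF (inc_smul hF a)]
    exact hn _ (hN a ha)

/-- the element of order `p + 1` -/
def ρ : Big hF := mk hF (tei hF (Q0 hF).ξu)

theorem ρ_smul (f : PowerSeries F) : ρ hF • f = rescale (ζ0 hF) f := tei_φ hF _ f

theorem ρ_inc (a : (Q0 hF).G1) : ρ hF * inc hF a * (ρ hF)⁻¹ = inc hF ((Q0 hF).cj a) := by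
  rw [mul_inv_eq_iff_eq_mul, ρ, inc_apply, inc_apply, ← map_mul, ← map_mul, lf_cj]

theorem ρ_pow_eq (i : ℕ) : ρ hF ^ i = mk hF (tei hF ((Q0 hF).ξu ^ i)) := by
  rw [ρ, ← teiH_apply, ← teiH_apply, map_pow, map_pow]

theorem ρ_pow : ρ hF ^ (p + 1) = 1 := by
  rw [ρ_pow_eq, mk_eq_one, mem_mu]
  refine ⟨_, Units.ext ?_, rfl⟩
  rw [← pow_mul, ← Nat.sq_sub_sq, one_pow, Units.val_pow_eq_pow_val]
  exact units_pow hF _

/-- the Frobenius of the residue field -/
def frE : F ≃+* F :=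
  have : Finite F := Nat.finite_of_card_ne_zero (hF ▸ pow_ne_zero 2 hp.out.ne_zero)
  frobeniusEquiv F p

theorem frE_apply (c : F) : frE hF c = c ^ p := rfl

theorem frE_sq : frE hF * frE hF = 1 := RingEquiv.ext fun c => by
  change (c ^ p) ^ p = c
  rw [← pow_mul, ← sq, pow_card_eq hF]

/-- the Frobenius of the coefficients -/
def τ : Big hF := mk hF (gal p (frE hF))

theorem coeff_τ (f : PowerSeries F) (n : ℕ) : coeff n (τ hF • f) = coeff n f ^ p := rfl

theorem τ_sq : τ hF * τ hF = 1 := by rw [τ, ← map_mul, ← map_mul, frE_sq, map_one, map_one]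

theorem τ_smul (c : F) (z : KK F) : τ hF • (c • z) = c ^ p • (τ hF • z) := by
  rw [Algebra.smul_def, Algebra.smul_def, smul_mul',
    IsScalarTower.algebraMap_apply F (PowerSeries F) (KK F), smul_alg,
    IsScalarTower.algebraMap_apply F (PowerSeries F) (KK F)]
  congr 2
  exact mapAut_C _ c

theorem ψ_comm (g : Big hF) : inc hF (Q0 hF).ψ * g = g * inc hF (Q0 hF).ψ := by
  obtain ⟨x, rfl⟩ := mk_surjective hF g
  rw [inc_apply, ← map_mul, ← map_mul]
  refine congrArg _ (comm_of hF (b := (Q0 hF).ψ) (fun f => ?_) (fun σ => ?_) x)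
  · change (1 + (p : OO p F)) * f = f * (1 + (p : OO p F))
    rw [add_mul, mul_add, (Nat.cast_commute p f).eq, one_mul, mul_one]
  · change galE p σ (1 + (p : OO p F)) = 1 + (p : OO p F)
    rw [map_add, map_one, map_natCast]

theorem aut_cases (h5 : 5 ≤ p) (σ : F ≃+* F) : σ = 1 ∨ σ = frE hF := by
  have hw := w_pow (Q0 hF) h5
  have h1 : σ (Q0 hF).w ^ 2 = (Q0 hF).w ^ 2 := by
    rw [← map_pow]
    exact fix_of_pow (p := p) (σ : F →+* F) (by rw [← pow_mul, mul_comm, pow_mul, hw, neg_sq])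
  have key : ∀ σ σ' : F ≃+* F, σ (Q0 hF).w = σ' (Q0 hF).w → σ = σ' := fun σ σ' h =>
    RingEquiv.ext fun c => by
      obtain ⟨i, j, rfl⟩ := w_span (Q0 hF) h5 hF c
      simp only [map_add, map_mul, map_natCast, map_one, h]
  rcases sq_eq_sq_iff_eq_or_eq_neg.1 h1 with h | h
  · exact Or.inl (key _ _ h)
  · exact Or.inr (key _ _ (by rw [h, frE_apply, hw]))

theorem frE_ne (h5 : 5 ≤ p) : frE hF ≠ 1 := fun h => by
  have h1 : (Q0 hF).w ^ p = (Q0 hF).w := RingEquiv.congr_fun h _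
  rw [w_pow _ h5] at h1
  exact mul_ne_zero (two_ne h5) (w_ne (Q0 hF)) (by linear_combination -h1)

/-- the map to the Galois group -/
def sg : Big hF →* (F ≃+* F) := (resAut hF).comp (act hF)

theorem sg_lfu (b : (OO p F)ˣ) : sg hF (mk hF (lfu hF b)) = 1 := resAut_eq hF (lfu_C hF b)

theorem sg_gal (σ : F ≃+* F) : sg hF (mk hF (gal p σ)) = σ := red_gal_φ hF σ

theorem inc_ρ (a : (Q0 hF).G1) (i : ℕ) :
    inc hF a * ρ hF ^ i = mk hF (lfu hF (a * (Q0 hF).tu ((Q0 hF).ξu ^ i))) := by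
  rw [ρ_pow_eq, map_mul, map_mul, lfu_tu]
  rfl

theorem dec (h5 : 5 ≤ p) (g : Big hF) : ∃! d : Fin (p + 1) × Fin 2,
    ∃ a, inc hF a * (ρ hF ^ (d.1 : ℕ) * τ hF ^ (d.2 : ℕ)) = g := by
  refine existsUnique_of_exists_of_unique ?_ ?_
  · obtain ⟨a, c, σ, rfl⟩ := exists_dec hF g
    have : NeZero (p ^ 2 - 1) := ⟨by
      have h : 2 ^ 2 ≤ p ^ 2 := Nat.pow_le_pow_left hp.out.two_le 2
      omega⟩
    obtain ⟨i, -, hi⟩ := (Q0 hF).ξ_prim.eq_pow_of_pow_eq_one (units_pow hF c)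
    have h1 : mk hF (tei hF c) = ρ hF ^ (i % (p + 1)) := by
      rw [← pow_eq_pow_mod i (ρ_pow hF), ρ_pow_eq]
      exact congrArg _ (congrArg _ (Units.ext hi.symm))
    rcases aut_cases hF h5 σ with rfl | rfl
    · exact ⟨(⟨_, Nat.mod_lt i p.succ_pos⟩, 0), a, by simp [h1]⟩
    · exact ⟨(⟨_, Nat.mod_lt i p.succ_pos⟩, 1), a, by simp [h1, τ]⟩
  · rintro ⟨i, e⟩ ⟨j, e'⟩ ⟨a, ha⟩ ⟨b, hb⟩
    have h := ha.trans hb.symm
    simp only at h
    rw [← mul_assoc, ← mul_assoc, inc_ρ, inc_ρ] at h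
    have h1 := congrArg (sg hF) h
    rw [map_mul (sg hF), map_mul (sg hF), sg_lfu, sg_lfu, map_pow, map_pow, τ, sg_gal, one_mul, one_mul] at h1
    obtain rfl : e = e' := by
      have h2 := frE_ne hF h5
      fin_cases e <;> fin_cases e' <;> simp_all [eq_comm]
    obtain ⟨d, hd, h2⟩ := r_pow_of_mk hF (mul_right_cancel h)
    have h3 : (Q0 hF).r ((Q0 hF).emb b * (Q0 hF).t ((Q0 hF).ξ ^ (j : ℕ))) =
        (Q0 hF).r ((Q0 hF).emb a * (Q0 hF).t ((Q0 hF).ξ ^ (i : ℕ)) * (Q0 hF).t d) :=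
      congrArg (fun x : (OO p F)ˣ => (Q0 hF).r (x : OO p F)) h2
    simp only [map_mul, QD.r_emb, QD.r_t, one_mul] at h3
    have h4 : ζ0 hF ^ (i : ℕ) = ζ0 hF ^ (j : ℕ) := by
      rw [ζ0, ← pow_mul, ← pow_mul, mul_comm, mul_comm (p - 1), pow_mul, pow_mul, h3, mul_pow,
        ← Units.val_pow_eq_pow_val d, hd, Units.val_one, mul_one]
    rw [Fin.ext ((ζ0_prim hF).pow_inj i.2 j.2 h4)]

end Big

end Vale.Agent.P221X.Qt
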