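import Vale.Agent.P221X.GD.Big

/-!
# P221X, block GD: continuity of the pairs, cosets of the big group
-/

noncomputable section

namespace Vale.Agent.P221X.Qt

open Vale.Agent.P217 Vale.Agent.P251.F Vale.Agent.P261Z Vale.Agent.P261Z.N PowerSeries

variable {p : ℕ} [hp : Fact p.Prime] {F : Type} [Field F]

theorem exists_lift' (hF : Nat.card F = p ^ 2) :
    ∃ L : AutF (H0 p F).toFG → LP p F, (∀ g c, (L g).φ (C c) = C c) ∧
      (∀ g, PowerSeries.map (constantCoeff (R := F)) (L g).γ.val = g.val) ∧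
      ∀ i j, ∃ m, ∀ g ∈ AutF.congr (H0 p F).toFG m,
        coeff j ((L g).γ.c i - (1 : InvSeries (PowerSeries F)).c i) = 0 := by
  obtain ⟨D, hD⟩ := exd (pser p) 2 F two_ne_zero hF
  obtain ⟨A, hA⟩ := rgex hUNIC 2 F D hD 1 1 le_rfl rfl F (RingHom.id F)
  have e : D.H = H0 p F := (Law.map_id _).symm.trans (Un.H_map hD (RingHom.id F))
  rw [← e]
  let ph : D.GG → (RR 1 F ≃+* RR 1 F) := fun g => RingEquiv.ofRingHom (A.ph g) (A.ph g⁻¹)
    (by rw [← A.ph_mul, mul_inv_cancel, A.ph_one]) (by rw [← A.ph_mul, inv_mul_cancel, A.ph_one])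
  let t : RR 1 F ≃+* PowerSeries F := (toO F).toRingEquiv
  refine ⟨fun g => ⟨(t.symm.trans (ph g)).trans t,
    InvSeries.map (t : RR 1 F →+* PowerSeries F) (A.ser g), ?_⟩, fun g c => ?_, fun g => ?_,
    fun i j => ?_⟩
  · have h := congrArg (Law.map (t : RR 1 F →+* PowerSeries F)) (A.law g)
    rw [InvSeries.map_smul, FR_toO, Law.map_map] at h
    rw [← FR_toO, Law.map_map, FR_toO, ← h]
    congr 2
    refine RingHom.ext fun f => ?_
    change t (A.phi g (t.symm (t f))) = t (A.phi g f)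
    rw [RingEquiv.symm_apply_apply]
  · change toO F (A.phi g ((toO F).symm (algebraMap F _ c))) = algebraMap F _ c
    rw [AlgEquiv.commutes, AlgHom.commutes, AlgEquiv.commutes]
  · ext i
    rcases i with _ | i
    · rw [coeff_map, coeff_zero_eq_constantCoeff_apply, coeff_zero_eq_constantCoeff_apply,
        InvSeries.cc, g.constantCoeff_val, map_zero]
    · change constantCoeff (toO F ((A.ser g).c i)) = _
      rw [cc_toO, hA g i]
      rfl
  · obtain ⟨m, hm⟩ := AutF.isLocallyConstant_iff.1 (A.cont_ser i (Finsupp.single 0 j)) 1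
    refine ⟨m, fun g hg => ?_⟩
    have h2 := hm g hg
    rw [A.ser_one, ← coeff_toO, ← coeff_toO] at h2
    rw [map_sub, sub_eq_zero, ← map_one (InvSeries.map (t : RR 1 F →+* PowerSeries F)),
      InvSeries.c_map, InvSeries.c_map]
    exact h2

theorem lift_cont_γ (hF : Nat.card F = p ^ 2) (n : ℕ) :
    ∃ m, ∀ g ∈ AutF.congr (H0 p F).toFG m, ∀ i < n,
      X ^ n ∣ (lift hF g).γ.c i - (1 : InvSeries (PowerSeries F)).c i := by
  obtain ⟨L, h1, h2, h3⟩ := exists_lift' hF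
  choose m hm using h3
  refine ⟨(Finset.range n ×ˢ Finset.range n).sup fun x => m x.1 x.2, fun g hg i hi =>
    X_pow_dvd_iff.2 fun j hj => ?_⟩
  rw [← eq_lift hF (h1 g) (h2 g)]
  exact hm i j g fun k hk => hg k (hk.trans_le (Finset.le_sup (f := fun x : ℕ × ℕ => m x.1 x.2)
    (b := (i, j)) (by simp [hi, hj])))

variable [CharP F p] (hF : Nat.card F = p ^ 2)

theorem mem_Gf_iff {n : ℕ} {a : (Q0 hF).G1} :
    a ∈ (Q0 hF).Gf n ↔ ∀ i < p ^ n, coeff i ((Q0 hF).emb a).val = coeff i X :=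
  EndF.sub_mem_I_iff (honda hF).frob (honda hF).teich (f := 1)

/-- deep elements are close to the identity -/
theorem lf_cont (n : ℕ) : ∃ N, ∀ a ∈ (Q0 hF).Gf N,
    (∀ f, X ^ n ∣ (lf hF a).φ f - f) ∧
      ∀ i < n, X ^ n ∣ (lf hF a).γ.c i - (1 : InvSeries (PowerSeries F)).c i := by
  obtain ⟨N, hN⟩ := act0_cont hF n
  obtain ⟨m, hm⟩ := lift_cont_γ hF n
  refine ⟨max N m, fun a ha => ⟨fun f => (pow_dvd_pow _ n.le_succ).trans
    (dvd_sub_of_dep (hN a ((Q0 hF).I_anti (le_max_left _ _) ha)) f), hm _ fun i hi => ?_⟩⟩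
  exact (mem_Gf_iff hF).1 ha i (hi.trans_le ((le_max_right N m).trans
    (Nat.lt_pow_self hp.out.one_lt).le))

/-- the coset of a pair is determined by its Galois part and finitely many coefficients -/
theorem inv_mul_mem_N {n : ℕ} (hn : 1 ≤ n) {x y : LP p F} (h1 : resAut hF x.φ = resAut hF y.φ)
    (h2 : ∀ i, i + 1 < p ^ n → constantCoeff (x.γ.c i) = constantCoeff (y.γ.c i)) :
    (Big.mk hF x)⁻¹ * Big.mk hF y ∈ ProG.N (G := Big hF) n := by
  have h3 : (toAut (red hF x))⁻¹ * toAut (red hF y) ∈ AutF.congr (H0 p F).toFG (p ^ n) := by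
    refine AutF.agr_iff_inv_mul_mem.1 fun i hi => ?_
    rcases i with _ | i
    · rw [AutF.cf_zero, AutF.cf_zero]
    · exact (h2 i hi).symm
  have h4 := (honda hF).mem_congr_iff.1 h3
  let a : (Q0 hF).G1 := ⟨AutF.toUnits ((toAut (red hF x))⁻¹ * toAut (red hF y)), by
    have h5 := (Q0 hF).mem_I_one.1 ((Q0 hF).I_anti hn h4)
    rw [map_sub, map_one, sub_eq_zero] at h5
    exact h5⟩
  have ha : Big.inc hF a ∈ ProG.N (G := Big hF) n := ⟨a, h4, rfl⟩
  have h5 := (ProG.normal (G := Big hF) n).conj_mem _ ha (Big.mk hF (gal p (resAut hF x.φ)))⁻¹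
  have h6 : Big.inc hF a = Big.mk hF (lift hF ((toAut (red hF x))⁻¹ * toAut (red hF y))) := rfl
  convert h5 using 1
  rw [h6, map_mul, map_inv]
  conv_lhs => rw [eq_lift_mul hF x, eq_lift_mul hF y, ← h1]
  simp only [map_mul, map_inv]
  group

end Vale.Agent.P221X.Qt
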