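import Vale.Agent.P221X.Base.Defs
import Vale.Agent.P251.F.PadicRing

/-!
# P221X, block GD: definitions

* `QD p O F` : the maximal order `O` of the quaternion algebra over `ℚ_p`, abstractly;
* `Q.G1` : the principal units, `Q.Gf i = 1 + S^i O`, the elements `γ₁, γ₂, g, ψ`, `Q.cj`;
* `GP Q` : the group theoretic facts (row GD-Q);
* `AD Q` : an action of `Q.G1` on `F[[u]]` with Keating's bounds;
* `mkGD A h : GD p F`.
-/

noncomputable section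

namespace Vale.Agent.P221X.Qt

open PowerSeries Vale.Agent.P251.F

/-- A complete ring with `p = S ^ 2`, Teichmueller lifts `t` and a generator `ξ` of `Fˣ`. -/
structure QD (p : ℕ) (O F : Type) [Ring O] [Field F] extends CSRing p 2 O F where
  t : F →* O
  r_t : ∀ a, r (t a) = a
  S_t : ∀ a, S * t a = t (a ^ p) * S
  unit : ∀ f, r f ≠ 0 → IsUnit f
  ξ : F
  ξ_prim : IsPrimitiveRoot ξ (p ^ 2 - 1)

namespace QD

variable {p : ℕ} {O F : Type} [Ring O] [Field F] (Q : QD p O F)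

/-- the principal units -/
def G1 : Subgroup Oˣ where
  carrier := {a | Q.r (a : O) = 1}
  one_mem' := by simp
  mul_mem' := fun {a b} ha hb => by
    simp only [Set.mem_ofPred_eq, Units.val_mul, map_mul] at ha hb ⊢
    rw [ha, hb, one_mul]
  inv_mem' := fun {a} ha => by
    simp only [Set.mem_ofPred_eq] at ha ⊢
    have h := congrArg Q.r a.mul_inv
    rwa [map_mul, ha, one_mul, map_one] at h

/-- the inclusion of the principal units in the ring -/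
def emb : Q.G1 →* O := (Units.coeHom O).comp Q.G1.subtype

theorem emb_injective : Function.Injective Q.emb := fun _ _ h => Subtype.ext (Units.ext h)

theorem r_emb (a : Q.G1) : Q.r (Q.emb a) = 1 := a.2

/-- the principal unit with a given value -/
def mk1 (f : O) (hf : Q.r f = 1) : Q.G1 :=
  ⟨(Q.unit f (by rw [hf]; exact one_ne_zero)).unit, hf⟩

@[simp] theorem emb_mk1 (f : O) (hf : Q.r f = 1) : Q.emb (Q.mk1 f hf) = f := rfl

/-- `1 + S ^ i O` -/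
def Gf (i : ℕ) : Subgroup Q.G1 where
  carrier := {a | Q.emb a - 1 ∈ Q.I i}
  one_mem' := by simp only [Set.mem_ofPred_eq, map_one, sub_self]; exact zero_mem _
  mul_mem' := fun {a b} ha hb => by
    simp only [Set.mem_ofPred_eq, map_mul] at ha hb ⊢
    have h := add_mem (Q.mul_mem_I_right ha (Q.emb b)) hb
    rwa [sub_mul, one_mul, sub_add_sub_cancel] at h
  inv_mem' := fun {a} ha => by
    simp only [Set.mem_ofPred_eq] at ha ⊢
    have h := neg_mem (Q.mul_mem_I_left (Q.emb a⁻¹) ha)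
    rwa [mul_sub, ← map_mul, inv_mul_cancel, map_one, mul_one, neg_sub] at h

theorem mem_Gf {i : ℕ} {a : Q.G1} : a ∈ Q.Gf i ↔ Q.emb a - 1 ∈ Q.I i := Iff.rfl

theorem r_p : Q.r (p : O) = 0 := by
  rw [Q.p_eq, map_pow, Q.r_S, zero_pow two_ne_zero]

/-- an element with `w ^ p = - w` -/
def w : F := Q.ξ ^ ((p + 1) / 2)

/-- its Teichmueller lift -/
def δ : O := Q.t Q.w

/-- `1 + S` -/
def γ₁ : Q.G1 := Q.mk1 (1 + Q.S) (by rw [map_add, map_one, Q.r_S, add_zero])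

/-- `1 + δ S` -/
def γ₂ : Q.G1 :=
  Q.mk1 (1 + Q.δ * Q.S) (by rw [map_add, map_one, map_mul, Q.r_S, mul_zero, add_zero])

/-- `1 + p δ` -/
def g : Q.G1 :=
  Q.mk1 (1 + (p : O) * Q.δ) (by rw [map_add, map_one, map_mul, Q.r_p, zero_mul, add_zero])

/-- `1 + p` -/
def ψ : Q.G1 := Q.mk1 (1 + (p : O)) (by rw [map_add, map_one, Q.r_p, add_zero])

theorem emb_γ₁ : Q.emb Q.γ₁ = 1 + Q.S := rfl
theorem emb_γ₂ : Q.emb Q.γ₂ = 1 + Q.δ * Q.S := rfl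
theorem emb_g : Q.emb Q.g = 1 + (p : O) * Q.δ := rfl
theorem emb_ψ : Q.emb Q.ψ = 1 + (p : O) := rfl

/-- Teichmueller units -/
def tu : Fˣ →* Oˣ := Units.map Q.t

theorem conj_mem (c : Oˣ) (a : Q.G1) : c * (a : Oˣ) * c⁻¹ ∈ Q.G1 := by
  change Q.r ((c * (a : Oˣ) * c⁻¹ : Oˣ) : O) = 1
  have h : Q.r ((a : Oˣ) : O) = 1 := a.2
  rw [Units.val_mul, Units.val_mul, map_mul, map_mul, h, mul_one, ← map_mul, Units.mul_inv,
    map_one]

/-- conjugation by a unit -/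
def conj (c : Oˣ) : Q.G1 ≃* Q.G1 where
  toFun a := ⟨c * a * c⁻¹, Q.conj_mem c a⟩
  invFun a := ⟨c⁻¹ * a * c⁻¹⁻¹, Q.conj_mem c⁻¹ a⟩
  left_inv a := Subtype.ext (by simp only; group)
  right_inv a := Subtype.ext (by simp only; group)
  map_mul' a b := Subtype.ext (by simp only [Subgroup.coe_mul]; group)

theorem emb_conj (c : Oˣ) (a : Q.G1) :
    Q.emb (Q.conj c a) = (c : O) * Q.emb a * ((c⁻¹ : Oˣ) : O) := rfl

variable [hp : Fact p.Prime]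

theorem ξ_ne : Q.ξ ≠ 0 := Q.ξ_prim.ne_zero (by
  have h : 2 ^ 2 ≤ p ^ 2 := Nat.pow_le_pow_left hp.out.two_le 2
  omega)

/-- the generator as a unit -/
def ξu : Fˣ := Units.mk0 Q.ξ Q.ξ_ne

/-- conjugation by the Teichmueller lift of `ξ` -/
def cj : Q.G1 ≃* Q.G1 := Q.conj (Q.tu Q.ξu)

end QD

variable {p : ℕ} [hp : Fact p.Prime] {O F : Type} [Ring O] [Field F]

/-- The group theoretic facts about the principal units. -/
structure GP (Q : QD p O F) : Prop where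
  Gf_one : ∀ a, a ∈ Q.Gf 1
  Gf_anti : ∀ {i j : ℕ}, i ≤ j → Q.Gf j ≤ Q.Gf i
  Gf_normal : ∀ i, (Q.Gf i).Normal
  Gf_comm : ∀ {i j : ℕ} {a b : Q.G1}, a ∈ Q.Gf i → b ∈ Q.Gf j →
    a * b * a⁻¹ * b⁻¹ ∈ Q.Gf (i + j)
  Gf_pow : ∀ {i : ℕ} {a : Q.G1}, 1 ≤ i → a ∈ Q.Gf i → a ^ p ∈ Q.Gf (i + 2)
  g_mem : Q.g ∈ Q.Gf 2
  ψ_mem : Q.ψ ∈ Q.Gf 2
  odd_span : ∀ (l : ℕ) (a : Q.G1), a ∈ Q.Gf (2 * l + 1) →
    ∃ i j : ℕ, ((Q.γ₁ ^ p ^ l) ^ i * (Q.γ₂ ^ p ^ l) ^ j)⁻¹ * a ∈ Q.Gf (2 * l + 2)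
  odd_ind : ∀ (l : ℕ) (i j : ℤ), (Q.γ₁ ^ p ^ l) ^ i * (Q.γ₂ ^ p ^ l) ^ j ∈ Q.Gf (2 * l + 2) →
    (p : ℤ) ∣ i ∧ (p : ℤ) ∣ j
  even_span : ∀ (l : ℕ) (a : Q.G1), a ∈ Q.Gf (2 * l + 2) →
    ∃ i j : ℕ, ((Q.g ^ p ^ l) ^ i * (Q.ψ ^ p ^ l) ^ j)⁻¹ * a ∈ Q.Gf (2 * l + 3)
  even_ind : ∀ (l : ℕ) (i j : ℤ), (Q.g ^ p ^ l) ^ i * (Q.ψ ^ p ^ l) ^ j ∈ Q.Gf (2 * l + 3) →
    (p : ℤ) ∣ i ∧ (p : ℤ) ∣ j
  ψ_comm : ∀ a, Q.ψ * a = a * Q.ψ
  cj_mem : ∀ i a, a ∈ Q.Gf i → Q.cj a ∈ Q.Gf i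
  cj_g : Q.cj Q.g = Q.g
  cj_ψ : Q.cj Q.ψ = Q.ψ
  cj_pow : ∀ a, (Q.cj ^ (p + 1)) a = a
  /-- the form of the elements in the hypothesis of `keat_odd` -/
  odd_form : ∀ (l : ℕ) (a : Q.G1), a ∈ Q.Gf (2 * l + 1) → a ∉ Q.Gf (2 * l + 2) →
    ∃ y : O, Q.r y ≠ 0 ∧ Q.emb a = 1 + (p : O) ^ l * (y * Q.S)
  /-- the form of the elements in the hypothesis of `keat_even` -/
  even_form : ∀ (l : ℕ) (a : Q.G1), a ∈ Q.Gf (2 * l + 2) →
    (∀ z : ℤ, Q.ψ ^ z * a ∉ Q.Gf (2 * l + 3)) →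
    ∃ y : O, Q.r y ^ p ≠ Q.r y ∧ Q.emb a = 1 + (p : O) ^ (l + 1) * y
  fin : ∀ i, (Q.Gf i).FiniteIndex

/-- `u ↦ ζ u` -/
def rotO (ζ : F) (h : ζ ≠ 0) : PowerSeries F ≃ₐ[F] PowerSeries F where
  toFun := rescale ζ
  invFun := rescale ζ⁻¹
  left_inv f := by rw [rescale_rescale, mul_inv_cancel₀ h, rescale_one]; rfl
  right_inv f := by rw [rescale_rescale, inv_mul_cancel₀ h, rescale_one]; rfl
  map_mul' := map_mul _
  map_add' := map_add _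
  commutes' c := by
    ext n
    rw [coeff_rescale, PowerSeries.algebraMap_apply, coeff_C]
    split_ifs with hn
    · rw [hn, pow_zero, one_mul]
    · rw [mul_zero]

theorem rotO_apply (ζ : F) (h : ζ ≠ 0) (f : PowerSeries F) : rotO ζ h f = rescale ζ f := rfl

/-- the extension of automorphisms to `F((u))` -/
def toK : (PowerSeries F ≃ₐ[F] PowerSeries F) →* (KK F ≃ₐ[F] KK F) where
  toFun a := IsFractionRing.algEquivOfAlgEquiv a
  map_one' := by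
    ext1 x
    obtain ⟨x, y, -, rfl⟩ := IsFractionRing.div_surjective (PowerSeries F) x
    simp
  map_mul' a b := by
    ext1 x
    obtain ⟨x, y, -, rfl⟩ := IsFractionRing.div_surjective (PowerSeries F) x
    simp

theorem toK_alg (a : PowerSeries F ≃ₐ[F] PowerSeries F) (f : PowerSeries F) :
    toK a (algebraMap (PowerSeries F) (KK F) f) = algebraMap (PowerSeries F) (KK F) (a f) :=
  IsFractionRing.algEquivOfAlgEquiv_algebraMap a f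

theorem uz_nat (n : ℕ) : (KK.uz (n : ℤ) : KK F) = algebraMap (PowerSeries F) (KK F) (X ^ n) := by
  induction n with
  | zero => simp
  | succ n ih => rw [pow_succ, map_mul, ← ih, KK.algebraMap_X, ← KK.uz_add]; rfl

theorem exists_alg_of_ge {f : KK F} (hf : f ∈ KK.ge 0) :
    ∃ g : PowerSeries F, f = algebraMap (PowerSeries F) (KK F) g := by
  refine ⟨PowerSeries.mk fun n => KK.cf n f, KK.ext fun n => ?_⟩
  rcases lt_or_ge n 0 with h | h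
  · rw [hf n h, KK.cf_algebraMap_neg _ h]
  · obtain ⟨m, rfl⟩ := Int.eq_ofNat_of_zero_le h
    rw [KK.cf_algebraMap, coeff_mk]

theorem cf_toK_rotO (ζ : F) (h : ζ ≠ 0) (f : KK F) (n : ℤ) :
    KK.cf n (toK (rotO ζ h) f) = ζ ^ n * KK.cf n f := by
  obtain ⟨N, hN⟩ := KK.exists_ge f
  obtain ⟨m, hm⟩ : ∃ m : ℕ, 0 ≤ (m : ℤ) + N ∧ 0 ≤ n + m := ⟨N.natAbs + n.natAbs, by omega⟩
  obtain ⟨g, hg⟩ := exists_alg_of_ge
    (KK.ge_mono hm.1 (KK.mul_mem_ge (KK.uz_mem_ge (m : ℤ)) hN))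
  obtain ⟨j, hj⟩ := Int.eq_ofNat_of_zero_le hm.2
  have h1 := congrArg (toK (rotO ζ h)) hg
  rw [map_mul, uz_nat, toK_alg, toK_alg, rotO_apply, rotO_apply, map_pow, rescale_X, mul_pow,
    map_mul, ← uz_nat, ← map_pow] at h1
  have h2 : algebraMap (PowerSeries F) (KK F) (C (ζ ^ m)) = algebraMap F (KK F) (ζ ^ m) :=
    (IsScalarTower.algebraMap_apply F (PowerSeries F) (KK F) _).symm
  have h3 := congrArg (KK.cf (n + m)) h1
  rw [h2, mul_assoc, ← Algebra.smul_def, map_smul, KK.cf_uz_mul, hj, KK.cf_algebraMap,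
    coeff_rescale, ← KK.cf_algebraMap, ← hg, ← hj, KK.cf_uz_mul, smul_eq_mul] at h3
  have h4 : ζ ^ j = ζ ^ m * ζ ^ n := by
    rw [← zpow_natCast, ← hj, zpow_add₀ h, zpow_natCast, mul_comm]
  rw [h4, mul_assoc] at h3
  exact mul_left_cancel₀ (pow_ne_zero m h) h3

/-- An action of the principal units on `F[[u]]` with Keating's bounds. -/
structure AD (Q : QD p O F) where
  act : Q.G1 →* (PowerSeries F ≃ₐ[F] PowerSeries F)
  dep_one : ∀ a, Dep (act a) 1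
  act_ψ : act Q.ψ = 1
  cont : ∀ n, ∃ N, ∀ a ∈ Q.Gf N, Dep (act a) n
  keat_odd : ∀ (l : ℕ) (a : Q.G1) (y : O), Q.r y ≠ 0 → Q.emb a = 1 + (p : O) ^ l * (y * Q.S) →
    ¬ Dep (act a) (lev1 p l)
  keat_even : ∀ (l : ℕ) (a : Q.G1) (y : O), Q.r y ^ p ≠ Q.r y →
    Q.emb a = 1 + (p : O) ^ (l + 1) * y → ¬ Dep (act a) (lev0 p (l + 1))
  ζ : F
  ζ_prim : IsPrimitiveRoot ζ (p + 1)
  act_cj : ∀ a f, act (Q.cj a) (rescale ζ f) = rescale ζ (act a f)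

/-- The group data. -/
def mkGD {Q : QD p O F} (A : AD Q) (h : GP Q) : GD p F where
  G := Q.G1
  act := A.act
  actK := toK.comp A.act
  actK_alg a f := toK_alg _ f
  dep_one := A.dep_one
  Gf := Q.Gf
  Gf_one := h.Gf_one
  Gf_anti := h.Gf_anti
  Gf_normal := h.Gf_normal
  Gf_comm := h.Gf_comm
  Gf_pow := h.Gf_pow
  γ₁ := Q.γ₁
  γ₂ := Q.γ₂
  g := Q.g
  ψ := Q.ψ
  g_mem := h.g_mem
  ψ_mem := h.ψ_mem
  odd_span := h.odd_span
  odd_ind := h.odd_ind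
  even_span := h.even_span
  even_ind := h.even_ind
  ψ_comm := h.ψ_comm
  act_ψ := A.act_ψ
  cont := A.cont
  keat_odd l a h1 h2 := by
    obtain ⟨y, hy, ha⟩ := h.odd_form l a h1 h2
    exact A.keat_odd l a y hy ha
  keat_even l a h1 h2 := by
    obtain ⟨y, hy, ha⟩ := h.even_form l a h1 h2
    exact A.keat_even l a y hy ha
  ζ := A.ζ
  ζ_prim := A.ζ_prim
  rot := rotO A.ζ (A.ζ_prim.ne_zero (Nat.succ_ne_zero p))
  rot_coeff f n := coeff_rescale f _ n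
  rotK := toK (rotO A.ζ (A.ζ_prim.ne_zero (Nat.succ_ne_zero p)))
  rotK_cf := cf_toK_rotO _ _
  cj := Q.cj
  act_cj := A.act_cj
  cj_mem := h.cj_mem
  cj_g := h.cj_g
  cj_ψ := h.cj_ψ
  cj_pow := h.cj_pow

end Vale.Agent.P221X.Qt
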