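import Vale.Agent.P221X.GD.Defs
import Vale.Agent.P221X.RIG.GDX
import Vale.Agent.P251.F.F3Root

/-!
# P221X, block GD: the Moebius coordinates of `mkGD A h` (row RIG-GDX)
-/

noncomputable section

namespace Vale.Agent.P221X.Qt

open Vale.Agent.P251.F

variable {p : ℕ} [hp : Fact p.Prime] {O F : Type} [Ring O] [Field F]

namespace QD

variable (Q : QD p O F)

theorem w_ne_x : Q.w ≠ 0 := pow_ne_zero _ Q.ξ_ne

theorem w_pred_x (h2 : p ≠ 2) : Q.w ^ (p - 1) = -1 := by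
  obtain ⟨m, hm⟩ := hp.out.odd_of_ne_two h2
  have h1 := hp.out.two_le
  have h3 : (p + 1) / 2 = m + 1 := by omega
  have h4 : p - 1 = 2 * m := by omega
  have h5 : p ^ 2 - 1 = (m + 1) * (2 * m) * 2 := by
    have : p ^ 2 = (m + 1) * (2 * m) * 2 + 1 := by rw [hm]; ring
    omega
  have h6 : 0 < p ^ 2 - 1 := by
    rw [h5]
    have : 0 < m := by omega
    positivity
  rw [w, h3, h4, ← pow_mul]
  exact (Q.ξ_prim.pow h6 h5).eq_neg_one_of_two_right

theorem w_pow_x (h2 : p ≠ 2) : Q.w ^ p = -Q.w := by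
  rw [← pow_sub_one_mul hp.out.ne_zero, Q.w_pred_x h2, neg_one_mul]

variable [CharP F p]

omit Q in
theorem two_ne_x (h2 : p ≠ 2) : (2 : F) ≠ 0 := by
  intro h0
  have h3 : ((2 : ℕ) : F) = 0 := by exact_mod_cast h0
  rw [CharP.cast_eq_zero_iff F p] at h3
  exact h2 ((Nat.prime_dvd_prime_iff_eq hp.out Nat.prime_two).1 h3)

theorem t_neg_one_x (h2 : p ≠ 2) : Q.t (-1) = -1 := by
  have := Q.noZeroDivisors
  have h1 : (Q.t (-1) - 1) * (Q.t (-1) + 1) = 0 := by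
    rw [mul_add, sub_mul, ← map_mul, neg_mul_neg, mul_one, map_one, one_mul, mul_one,
      sub_add_sub_cancel, sub_self]
  rcases mul_eq_zero.1 h1 with h | h
  · exfalso
    have h3 := congrArg Q.r h
    rw [map_sub, Q.r_t, map_one, map_zero] at h3
    exact two_ne_x (F := F) h2 (by linear_combination -h3)
  · exact eq_neg_of_add_eq_zero_left h

theorem S_δ_x (h2 : p ≠ 2) : Q.S * Q.δ = -(Q.δ * Q.S) := by
  rw [δ, Q.S_t, Q.w_pow_x h2, ← neg_one_mul Q.w, map_mul, Q.t_neg_one_x h2, neg_one_mul, neg_mul]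

/-- Teichmueller lifts of elements of the prime field are `p`-adic integers. -/
theorem exists_iota_t {c : F} (hc : c ^ (p - 1) = 1) : ∃ d : ℤ_[p], Q.t c = Q.iotaHom d := by
  have h1 := hp.out.two_le
  obtain ⟨η, hη, hη'⟩ := F3.exists_eta p
  have h3 : IsPrimitiveRoot (Q.r (Q.iotaHom η)) (p - 1) := by
    refine ⟨by rw [← map_pow, ← map_pow, hη, map_one, map_one], fun l hl => ?_⟩
    by_contra hn
    refine (((hη' l hn).map Q.iotaHom).map Q.r).ne_zero ?_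
    rw [map_sub, map_sub, map_pow, map_pow, hl, map_one, map_one, sub_self]
  have : NeZero (p - 1) := ⟨by omega⟩
  obtain ⟨i, -, hi⟩ := h3.eq_pow_of_pow_eq_one hc
  obtain ⟨d, hd, hdc⟩ : ∃ d : ℤ_[p], d ^ (p - 1) = 1 ∧ Q.r (Q.iotaHom d) = c :=
    ⟨η ^ i, by rw [← pow_mul, mul_comm, pow_mul, hη, one_pow], by rw [map_pow, map_pow, hi]⟩
  refine ⟨d, ?_⟩
  have h4 : p - 1 = p - 2 + 1 := by omega
  have hcm : Commute (Q.t c) (Q.iotaHom (d ^ (p - 2))) := (Q.iota_comm _ _).symm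
  have h5 : Q.t c * Q.iotaHom (d ^ (p - 2)) = 1 := by
    refine Q.eq_one_of_pow_coprime (n := p - 1) (fun h => ?_) ?_ ?_
    · have := Nat.le_of_dvd (by omega) h
      omega
    · rw [hcm.mul_pow, ← map_pow, hc, map_one, one_mul, ← map_pow, ← pow_mul, mul_comm, pow_mul,
        hd, one_pow, map_one]
    · rw [map_mul, Q.r_t, map_pow, map_pow, hdc, ← pow_succ', ← h4, hc]
  calc Q.t c = Q.t c * Q.iotaHom (d ^ (p - 1)) := by rw [hd, map_one, mul_one]
    _ = Q.iotaHom d := by rw [h4, pow_succ, map_mul, ← mul_assoc, h5, one_mul]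

theorem exists_δ_sq (h2 : p ≠ 2) : ∃ d : ℤ_[p], Q.δ * Q.δ = Q.iotaHom d := by
  rw [δ, ← map_mul]
  exact Q.exists_iota_t (by rw [mul_pow, Q.w_pred_x h2, neg_mul_neg, mul_one])

theorem span_w (h2 : p ≠ 2) (hF : Nat.card F = p ^ 2) (y : F) :
    ∃ a b : ℤ, y = a + b * Q.w := by
  have : Finite F := Nat.finite_of_card_ne_zero (by rw [hF]; exact pow_ne_zero _ hp.out.ne_zero)
  have : Fintype F := Fintype.ofFinite F
  have h1 : (y ^ p) ^ p = y := by
    rw [← pow_mul, ← sq, ← hF, Nat.card_eq_fintype_card, FiniteField.pow_card]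
  have h20 := two_ne_x (F := F) h2
  have h3 : (2 : F) ^ p = 2 := by
    rw [← one_add_one_eq_two, add_pow_char, one_pow]
  have key : ∀ x : F, x ^ p = x → ∃ n : ℤ, (n : F) = x := fun x hx =>
    (mem_bot_iff_intCast p F).1 ((Subfield.mem_bot_iff_pow_eq_self F p).2 hx)
  obtain ⟨a, ha⟩ := key ((y + y ^ p) / 2) (by rw [div_pow, add_pow_char, h1, h3, add_comm])
  obtain ⟨b, hb⟩ := key ((y - y ^ p) / (2 * Q.w)) (by
    rw [div_pow, sub_pow_char, h1, mul_pow, h3, Q.w_pow_x h2, mul_neg, div_neg, ← neg_div, neg_sub])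
  refine ⟨a, b, ?_⟩
  have hw := Q.w_ne_x
  rw [ha, hb]
  field_simp
  ring

/-- the quaternion coordinates of `Q`. -/
def toRQD (h2 : p ≠ 2) (hF : Nat.card F = p ^ 2) : RIG.QD Q.toCSRing where
  δ := Q.δ
  Dd := (Q.exists_δ_sq h2).choose
  δ_sq := (Q.exists_δ_sq h2).choose_spec
  S_δ := Q.S_δ_x h2
  r_δ := by rw [δ, Q.r_t]; exact Q.w_ne_x
  span y := by rw [δ, Q.r_t]; exact Q.span_w h2 hF y

end QD

/-- the group of `mkGD A h` is the group of principal units. -/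
def embX [CharP F p] {Q : QD p O F} (A : AD Q) (h : GP Q) (h2 : p ≠ 2)
    (hF : Nat.card F = p ^ 2) : RIG.Emb (mkGD A h) Q.toCSRing where
  toQD := Q.toRQD h2 hF
  j := Q.emb
  j_inj := Q.emb_injective
  j_surj x hx := ⟨Q.mk1 x hx, rfl⟩
  mem _ _ := Iff.rfl
  j_γ₁ := rfl
  j_γ₂ := rfl
  j_g := rfl
  j_ψ := rfl

/-- row RIG-GDX -/
theorem gdx [CharP F p] {Q : QD p O F} (A : AD Q) (h : GP Q) (h5 : 5 ≤ p)
    (hF : Nat.card F = p ^ 2) : Nonempty (RIG.GDX (mkGD A h)) :=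
  (embX A h (by omega) hF).gdx (by omega)

end Vale.Agent.P221X.Qt
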