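import Vale.Agent.P221X.GD.LP

/-!
# P221X, block GD: curves in the law `FO` modulo powers of `u`
-/

noncomputable section

namespace Vale.Agent.P221X.Qt.Kt

open Vale.Agent.P217 Vale.Agent.P251.F Vale.Agent.P261Z Vale.Agent.P261Z.N PowerSeries

section Gen

variable {S T : Type} [CommRing S] [CommRing T] {Φ : Law S}

theorem hsb {s : PowerSeries S} (h : constantCoeff s = 0) : HasSubst s := hasSubst_of_cc h

theorem subst_C_mul {s : PowerSeries S} (h : constantCoeff s = 0) (a : S) (w : PowerSeries S) :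
    (subst s (C a * w) : PowerSeries S) = C a * subst s w := by
  rw [subst_mul (hsb h), subst_C]; rfl

theorem map_sb (φ : S →+* T) {s : PowerSeries S} (h : constantCoeff s = 0) (w : PowerSeries S) :
    PowerSeries.map φ (subst s w : PowerSeries S) =
      subst (PowerSeries.map φ s) (PowerSeries.map φ w) := map_subst (hsb h) w

theorem add_ser (a b : Cv Φ) : ∃ h, (a + b).ser = a.ser + b.ser + a.ser * b.ser * h := by
  obtain ⟨H, e⟩ := exists_FG_decomp Φ.toFG
  have h := hasSubst_cons a.cc b.cc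
  refine ⟨MvPowerSeries.subst ![a.ser, b.ser] H, ?_⟩
  rw [Cv.ser_add, show Φ.ps = _ from e, ← sHom_apply h, ← sHom_apply h]
  simp only [map_add, map_mul, sHom_X]
  rfl

theorem sub_ser (a b : Cv Φ) : ∃ h, a.ser - b.ser = (a - b).ser * (1 + b.ser * h) := by
  obtain ⟨h, e⟩ := add_ser (a - b) b
  rw [sub_add_cancel] at e
  exact ⟨h, by rw [e]; ring⟩

theorem dvd_sub_iff {t : PowerSeries S} {a b : Cv Φ} : t ∣ (a - b).ser ↔ t ∣ a.ser - b.ser := by
  obtain ⟨h, e⟩ := sub_ser a b
  rw [e, IsUnit.dvd_mul_right (isUnit_iff_constantCoeff.2 (by simp [b.cc]))]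

/-- the curves which are divisible by `t` -/
def KC (Φ : Law S) (t : PowerSeries S) : AddSubgroup (Cv Φ) where
  carrier := {z | t ∣ z.ser}
  zero_mem' := dvd_zero t
  add_mem' := fun {a b} ha hb => (add_ser a b).elim fun h e => by
    change t ∣ _
    rw [e]
    exact dvd_add (dvd_add ha hb) ((Dvd.dvd.mul_right ha _).mul_right _)
  neg_mem' := fun {a} ha => by
    change t ∣ _
    rw [← zero_sub, dvd_sub_iff, Cv.ser_zero, zero_sub]
    exact dvd_neg.2 ha

theorem coeff_one_sub (a b : Cv Φ) : coeff 1 (a - b).ser = coeff 1 a.ser - coeff 1 b.ser := by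
  obtain ⟨h, e⟩ := sub_ser a b
  rw [← map_sub, e, coeff_one_mul, (a - b).cc]
  simp [b.cc]

theorem C_dvd_iff {t : S} {z : PowerSeries S} : C t ∣ z ↔ ∀ i, t ∣ coeff i z := by
  refine ⟨fun ⟨w, e⟩ i => ⟨coeff i w, by rw [e, coeff_C_mul]⟩, fun h => ?_⟩
  choose w hw using h
  exact ⟨mk w, PowerSeries.ext fun i => by rw [coeff_C_mul, coeff_mk, hw]⟩

theorem d_C_mul (a : S) (w : PowerSeries S) : derivative S (C a * w) = C a * derivative S w := by
  rw [Derivation.leibniz, derivative_C, smul_zero, add_zero, smul_eq_mul]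

theorem d_mul (a b : PowerSeries S) :
    derivative S (a * b) = a * derivative S b + b * derivative S a := Derivation.leibniz _ a b

theorem d_add (a b : PowerSeries S) : derivative S (a + b) = derivative S a + derivative S b :=
  map_add _ a b

theorem d_sub (a b : PowerSeries S) : derivative S (a - b) = derivative S a - derivative S b :=
  map_sub _ a b

theorem d_neg (a : PowerSeries S) : derivative S (-a) = -derivative S a := map_neg _ a

theorem map_d (φ : S →+* T) (w : PowerSeries S) :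
    PowerSeries.map φ (derivative S w) = derivative T (PowerSeries.map φ w) := by
  ext i
  simp [coeff_derivative]

variable {p : ℕ} [hp : Fact p.Prime]

theorem ccp : constantCoeff (X ^ p : PowerSeries S) = 0 := by simp [hp.out.ne_zero]

theorem C_dvd_expand {t : S} {z : PowerSeries S}
    (h : C t ∣ (subst (X ^ p : PowerSeries S) z : PowerSeries S)) : C t ∣ z :=
  C_dvd_iff.2 fun i => by
    simpa [coeff_subst_X_pow hp.out.ne_zero, hp.out.ne_zero] using C_dvd_iff.1 h (p * i)

theorem expand_eq_zero {z : PowerSeries S}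
    (h : (subst (X ^ p : PowerSeries S) z : PowerSeries S) = 0) : z = 0 := by
  simpa using C_dvd_expand (p := p) (t := 0) (z := z) (by simp [h])

variable (p Φ) in
/-- `z ↦ z (x ^ p)` -/
def vv : Cv Φ →+ Cv Φ := rep Φ (X ^ p) ccp

theorem vv_inj : Function.Injective (vv Φ p) :=
  (injective_iff_map_eq_zero _).2 fun _ h => Cv.ext (expand_eq_zero (p := p) (congrArg Cv.ser h))

theorem mon_eq : mon p Φ 1 1 = vv Φ p := rep_congr _ _ _ (by simp)

variable [CharP S p]

omit hp in
theorem d_Xp : derivative S (X ^ p : PowerSeries S) = 0 := by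
  rw [derivative_pow, ← map_natCast (C (R := S)), CharP.cast_eq_zero, map_zero, zero_mul, zero_mul]

theorem d_expand (z : PowerSeries S) :
    derivative S (subst (X ^ p : PowerSeries S) z : PowerSeries S) = 0 := by
  rw [derivative_subst (hsb ccp), d_Xp, mul_zero]

theorem pow_p (f : PowerSeries S) :
    f ^ p = subst (X ^ p : PowerSeries S) (PowerSeries.map (frobenius S p) f) := by
  rw [← expand_apply p hp.out.ne_zero, ← map_expand]
  exact (MvPowerSeries.map_frobenius_expand p hp.out.ne_zero (f := (f : MvPowerSeries Unit S))).symm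

theorem cc_map (φ : S →+* T) {f : PowerSeries S} (h : constantCoeff f = 0) :
    constantCoeff (PowerSeries.map φ f) = 0 := by
  rw [← coeff_zero_eq_constantCoeff_apply, coeff_map, coeff_zero_eq_constantCoeff_apply, h,
    map_zero]

end Gen

variable {p : ℕ} [hp : Fact p.Prime] {F : Type} [Field F]

/-- the parameter `u` -/
def uu (F : Type) [Field F] : PowerSeries (PowerSeries F) := C X

/-- reduction modulo `u` -/
def red : PowerSeries (PowerSeries F) →+* PowerSeries F := PowerSeries.map constantCoeff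

theorem uu_pow (c : ℕ) : uu F ^ c = C (X ^ c) := (map_pow _ _ _).symm

theorem uu_ne (c : ℕ) : uu F ^ c ≠ 0 :=
  pow_ne_zero _ fun h => X_ne_zero (C_injective (h.trans (map_zero C).symm))

theorem u_dvd {z : PowerSeries (PowerSeries F)} : uu F ∣ z ↔ red z = 0 := by
  simp [uu, C_dvd_iff, X_dvd_iff, red, PowerSeries.ext_iff]

@[simp] theorem red_u : red (uu F) = 0 := u_dvd.1 dvd_rfl

@[simp] theorem red_X : red (X : PowerSeries (PowerSeries F)) = X := map_X _

theorem subst_u {s : PowerSeries (PowerSeries F)} (h : constantCoeff s = 0) (c : ℕ) (w) :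
    (subst s (uu F ^ c * w) : PowerSeries (PowerSeries F)) = uu F ^ c * subst s w := by
  rw [uu_pow, subst_C_mul h]

theorem d_u (c : ℕ) (w) : derivative _ (uu F ^ c * w) = uu F ^ c * derivative _ w := by
  rw [uu_pow, d_C_mul]

theorem lead {Φ : Law (PowerSeries F)} {a b : Cv Φ} {c : ℕ} {w} (h : a.ser - b.ser = uu F ^ c * w)
    (hb : uu F ∣ b.ser) : ∃ w', (a - b).ser = uu F ^ c * w' ∧ red w' = red w := by
  obtain ⟨w', e⟩ := dvd_sub_iff.2 ⟨w, h⟩
  obtain ⟨t, e'⟩ := sub_ser a b
  rw [h, e, mul_assoc] at e'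
  exact ⟨w', e, by simp [mul_left_cancel₀ (uu_ne c) e', u_dvd.1 hb]⟩

variable (p F) in
/-- `[p] x = V (x ^ p)` -/
def Vc : Cv (FO p F) := mon p _ X 0 (xx _) + vv _ p (xx _)

theorem V_ser : ∃ h, (Vc p F).ser = uu F * X + X ^ p + uu F * X * X ^ p * h := by
  obtain ⟨h, e⟩ := add_ser (mon p (FO p F) X 0 (xx _)) (vv _ p (xx _))
  rw [mon_xx_ser, vv, rep_xx, pow_zero, pow_one] at e
  exact ⟨h, by rw [Vc, vv, rep_xx]; exact e⟩

theorem red_V : red (Vc p F).ser = X ^ p := (V_ser (p := p) (F := F)).elim fun h e => by simp [e]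

theorem coeff_V : coeff 1 (Vc p F).ser = X := V_ser.elim fun h e => by
  obtain ⟨k, hk⟩ := Nat.exists_eq_add_of_le' hp.out.two_le
  rw [e, show uu F * X + X ^ p + uu F * X * X ^ p * h =
    uu F * X + X ^ 2 * (X ^ k + uu F * X * X ^ k * h) by rw [hk]; ring, map_add,
    X_pow_dvd_iff.1 (dvd_mul_right _ _) 1 one_lt_two]
  simp [uu]

variable [CharP F p]

instance charO : CharP (PowerSeries F) p := charP_of_injective_ringHom (C_injective (R := F)) p

theorem p_xx : p • xx (FO p F) = vv _ p (Vc p F) := by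
  have h := pser p (PowerSeries F) (CharP.cast_eq_zero _ p) (par 2 fun _ => X) 2
    fun i hi => by rw [par, if_neg (by omega), if_neg (by omega)]
  rw [Vc, ← mon_eq, map_add, mon_mon, mon_mon, one_pow, one_pow, mul_one, mul_one]
  rw [Finset.sum_range_succ, Finset.sum_range_one] at h
  exact h

theorem d_V : ∃ w, derivative _ (Vc p F).ser = uu F * w ∧ red w ≠ 0 := V_ser.elim fun h e => by
  refine ⟨1 + X ^ p * derivative _ (X * h), ?_, fun c => ?_⟩
  · rw [e, show uu F * X * X ^ p * h = uu F * (X ^ p * (X * h)) by ring, d_add, d_add, d_Xp, uu,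
      d_C_mul, d_C_mul, d_mul, d_Xp, derivative_X]
    ring
  · simpa [hp.out.ne_zero] using congrArg constantCoeff c

variable (p) in
/-- the Frobenius map on the coefficients -/
def fr : PowerSeries (PowerSeries F) →+* PowerSeries (PowerSeries F) :=
  PowerSeries.map (frobenius _ p)

theorem fr_u : fr p (uu F) = uu F ^ p := by rw [fr, uu, map_C, frobenius_def, map_pow]

theorem red_fr (w : PowerSeries (PowerSeries F)) :
    red (fr p w) = PowerSeries.map (frobenius F p) (red w) := by
  ext i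
  simp [red, fr, frobenius_def]

theorem cc_fr {f : PowerSeries (PowerSeries F)} (h : constantCoeff f = 0) :
    constantCoeff (fr p f) = 0 := cc_map _ h

/-- `[p] z = (W z) (x ^ p)` -/
def W0 (z : Cv (FO p F)) : Cv (FO p F) := rep _ (fr p z.ser) (cc_fr z.cc) (Vc p F)

theorem vv_W0 (z : Cv (FO p F)) : vv _ p (W0 z) = p • z := by
  have h : z = rep _ z.ser z.cc (xx _) := by rw [rep_xx]; rfl
  conv_rhs => rw [h, ← map_nsmul, p_xx, vv, rep_rep]
  rw [W0, vv, rep_rep]
  congr 1
  apply rep_congr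
  rw [subst_pow (hsb z.cc), subst_X (hsb z.cc), pow_p z.ser]
  rfl

variable (p F) in
/-- `[p] z = (W z) (x ^ p)` -/
def W : Cv (FO p F) →+ Cv (FO p F) :=
  AddMonoidHom.mk' W0 fun a b => vv_inj (p := p) (by simp only [map_add, vv_W0, smul_add])

theorem vv_W (z : Cv (FO p F)) : vv _ p (W p F z) = p • z := vv_W0 z

theorem W_vv (z : Cv (FO p F)) : W p F (vv _ p z) = vv _ p (W p F z) :=
  vv_inj (p := p) (by rw [vv_W, vv_W, map_nsmul])

theorem W_ser (z : Cv (FO p F)) : ∃ h, (W p F z).ser =
    uu F * fr p z.ser + fr p z.ser ^ p + uu F * fr p z.ser * fr p z.ser ^ p * h := by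
  obtain ⟨h, e⟩ := V_ser (p := p) (F := F)
  have h0 : constantCoeff (fr p z.ser) = 0 := cc_map _ z.cc
  refine ⟨subst (fr p z.ser) h, ?_⟩
  change (subst (fr p z.ser) (Vc p F).ser : PowerSeries (PowerSeries F)) = _
  simp only [e, subst_add (hsb h0), subst_mul (hsb h0), subst_pow (hsb h0), subst_X (hsb h0), uu,
    subst_C]
  rfl

theorem W_lead {z : Cv (FO p F)} {c : ℕ} {w} (h : z.ser = uu F ^ c * w) (hc : 1 ≤ c) :
    ∃ w', (W p F z).ser = uu F ^ (p * c + 1) * w' ∧ red w' = red (fr p w) := by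
  obtain ⟨t, e⟩ := W_ser z
  obtain ⟨k, hk⟩ : ∃ k, p * c * p = p * c + 1 + (k + 1) :=
    ⟨p * c * p - (p * c + 2), by
      have := Nat.mul_le_mul_left (p * c) hp.out.two_le
      have := Nat.mul_le_mul hp.out.two_le hc
      omega⟩
  refine ⟨fr p w + uu F ^ (k + 1) * (fr p w ^ p + uu F ^ (p * c + 1) * fr p w * fr p w ^ p * t), ?_,
    by simp⟩
  rw [e, h, map_mul, map_pow, fr_u, ← pow_mul, mul_pow, ← pow_mul, hk]
  ring

theorem red_W (hF : ∀ c : F, c ^ p ^ 2 = c) (z : Cv (FO p F)) :
    red (W p F z).ser = subst (X ^ p : PowerSeries F) (red z.ser) := by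
  obtain ⟨t, e⟩ := W_ser z
  have : PowerSeries.map (frobenius F p) (PowerSeries.map (frobenius F p) (red z.ser)) =
      red z.ser := by
    ext i
    simp [frobenius_def, ← pow_mul, ← sq, hF]
  simp only [e, map_add, map_mul, map_pow, red_u, zero_mul, zero_add, add_zero]
  rw [red_fr, pow_p, this]

theorem coeff_W (z : Cv (FO p F)) : coeff 1 (W p F z).ser = coeff 1 z.ser ^ p * X :=
  (coeff_one_subst (cc_map _ z.cc)).trans (by
    rw [coeff_V]
    exact congrArg (· * X) (coeff_map _ _ _))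

end Vale.Agent.P221X.Qt.Kt
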