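import Vale.Agent.P221X.GD.Big
import Vale.Agent.P221X.GD.GDX
import Vale.Agent.P221X.Meas.RA

/-!
# P221X, block GD: the group data `D0`, its Moebius coordinates and the big group

Everything is relative to Keating's bounds `Keat hF`.
-/

noncomputable section

namespace Vale.Agent.P221X.Qt

open PowerSeries

variable {p : ℕ} [hp : Fact p.Prime] {F : Type} [Field F] [CharP F p] (hF : Nat.card F = p ^ 2)

/-- Keating's bounds -/
structure Keat : Prop where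
  dep_one : ∀ a, Dep (act0 hF a) 1
  keat_odd : ∀ (l : ℕ) (a : (Q0 hF).G1) (y : OO p F), (Q0 hF).r y ≠ 0 →
    (Q0 hF).emb a = 1 + (p : OO p F) ^ l * (y * (Q0 hF).S) → ¬ Dep (act0 hF a) (lev1 p l)
  keat_even : ∀ (l : ℕ) (a : (Q0 hF).G1) (y : OO p F), (Q0 hF).r y ^ p ≠ (Q0 hF).r y →
    (Q0 hF).emb a = 1 + (p : OO p F) ^ (l + 1) * y → ¬ Dep (act0 hF a) (lev0 p (l + 1))

variable {hF} (K : Keat hF) (h5 : 5 ≤ p)

/-- the action data -/
def ad0 : AD (Q0 hF) where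
  act := act0 hF
  dep_one := K.dep_one
  act_ψ := act0_ψ hF
  cont := act0_cont hF
  keat_odd := K.keat_odd
  keat_even := K.keat_even
  ζ := ζ0 hF
  ζ_prim := ζ0_prim hF
  act_cj := act0_cj hF

/-- the group data -/
def D0 : GD p F := mkGD (ad0 K) (gp _ h5 hF)

theorem gdx0 : Nonempty (RIG.GDX (D0 K h5)) := gdx _ _ h5 hF

/-- the big group over the group data -/
def gx0 : GX (D0 K h5) (Big hF) where
  inc := Big.inc hF
  opn := ⟨Big.inc_injective hF, fun i => ⟨i, fun n hn => ⟨n, hn, rfl⟩⟩, fun j => ⟨j, fun _ h => h⟩⟩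
  inc_K a z := (Big.smul_eq_toK hF (Big.inc_smul hF a) z).symm
  ρ := Big.ρ hF
  ρ_K := Big.smul_eq_toK hF (Big.ρ_smul hF)
  ρ_inc := Big.ρ_inc hF
  ρ_pow := Big.ρ_pow hF
  τ := Big.τ hF
  τ_K := Big.τ_smul hF
  ψ_comm := Big.ψ_comm hF
  dec := Big.dec hF h5

theorem gx0_inc : (gx0 K h5).inc = Big.inc hF := rfl

theorem D0_ψ : (D0 K h5).ψ = (Q0 hF).ψ := rfl

end Vale.Agent.P221X.Qt
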