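import Vale.Agent.P221X.GD.Keat
import Vale.Agent.P221X.GD.Main

/-!
# P221X, block GD: Keating's bounds, packaged
-/

namespace Vale.Agent.P221X.Qt

theorem keat {p : ℕ} [Fact p.Prime] {F : Type} [Field F] [CharP F p] (hF : Nat.card F = p ^ 2) :
    Keat hF := ⟨Kt.dep_one hF, Kt.keat_odd hF, Kt.keat_even hF⟩

end Vale.Agent.P221X.Qt
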