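import Vale.Agent.P251.F.Series
import Mathlib.Algebra.Group.MinimalAxioms

/-!
# P221X, block GD: the group of pairs `(φ, γ)`

For a law `Φ` over `B`, `LPair Φ` is the group of the pairs of an automorphism `φ` of `B` and an
isomorphism `γ : φ Φ → Φ`.
-/

noncomputable section

namespace Vale.Agent.P221X.Qt

open Vale.Agent.P251.F

variable {B : Type} [CommRing B]

/-- pairs `(φ, γ)` with `γ • φ Φ = Φ` -/
@[ext] structure LPair (Φ : Law B) where
  φ : B ≃+* B
  γ : InvSeries B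
  law : γ • Φ.map (φ : B →+* B) = Φ

namespace LPair

variable {Φ : Law B}

theorem coe_mul (a b : B ≃+* B) :
    ((a * b : B ≃+* B) : B →+* B) = (a : B →+* B).comp (b : B →+* B) := rfl

theorem coe_one : ((1 : B ≃+* B) : B →+* B) = RingHom.id B := rfl

instance : Mul (LPair Φ) where
  mul a b := ⟨a.φ * b.φ, a.γ * InvSeries.map (a.φ : B →+* B) b.γ, by
    rw [coe_mul, ← Law.map_map, mul_smul, ← InvSeries.map_smul, b.law, a.law]⟩

instance : One (LPair Φ) where
  one := ⟨1, 1, by rw [coe_one, Law.map_id, one_smul]⟩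

instance : Inv (LPair Φ) where
  inv a := ⟨a.φ⁻¹, InvSeries.map ((a.φ⁻¹ : B ≃+* B) : B →+* B) a.γ⁻¹, by
    have h := congrArg (Law.map ((a.φ⁻¹ : B ≃+* B) : B →+* B)) (eq_inv_smul_iff.2 a.law)
    rw [Law.map_map, ← coe_mul, inv_mul_cancel, coe_one, Law.map_id, InvSeries.map_smul] at h
    exact h.symm⟩

theorem mul_φ (a b : LPair Φ) : (a * b).φ = a.φ * b.φ := rfl

theorem mul_γ (a b : LPair Φ) : (a * b).γ = a.γ * InvSeries.map (a.φ : B →+* B) b.γ := rfl

theorem one_φ : (1 : LPair Φ).φ = 1 := rfl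

theorem one_γ : (1 : LPair Φ).γ = 1 := rfl

theorem inv_φ (a : LPair Φ) : a⁻¹.φ = a.φ⁻¹ := rfl

theorem inv_γ (a : LPair Φ) : a⁻¹.γ = InvSeries.map ((a.φ⁻¹ : B ≃+* B) : B →+* B) a.γ⁻¹ := rfl

instance : Group (LPair Φ) := Group.ofLeftAxioms
  (fun a b c => LPair.ext (mul_assoc _ _ _) (by
    rw [mul_γ, mul_γ, mul_γ, mul_γ, mul_φ, map_mul, InvSeries.map_map, coe_mul, mul_assoc]))
  (fun a => LPair.ext (one_mul _) (by
    rw [mul_γ, one_γ, one_φ, coe_one, InvSeries.map_id, one_mul]))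
  (fun a => LPair.ext (inv_mul_cancel _) (by
    rw [mul_γ, inv_γ, inv_φ, ← map_mul, inv_mul_cancel, map_one, one_γ]))

/-- the action on the base ring -/
def act (Φ : Law B) : LPair Φ →* (B ≃+* B) where
  toFun a := a.φ
  map_one' := rfl
  map_mul' _ _ := rfl

theorem act_apply (a : LPair Φ) : act Φ a = a.φ := rfl

end LPair

end Vale.Agent.P221X.Qt
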